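import Mathlib

/-!
# Reciprocals of primes congruent to `1` modulo `4`

A weak Mertens estimate for primes `p ≡ 1 (mod 4)`, deduced from the behaviour of the logarithmic
derivatives of Dirichlet `L`-functions near `s = 1`.
-/

namespace Vale.Agent.P015h2

open Finset ArithmeticFunction

open ArithmeticFunction.vonMangoldt in
/-- Upper bound for the Dirichlet series of the von Mangoldt function near `1`. -/
lemma vonMangoldt_series_le :
    ∃ C : ℝ, 0 < C ∧ ∀ x : ℝ, x ∈ Set.Ioc (1 : ℝ) 2 →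
      ∑' n : ℕ, ArithmeticFunction.vonMangoldt n / (n : ℝ) ^ x ≤ C / (x - 1) := by
  have ha : IsUnit (1 : ZMod 1) := isUnit_one
  have hres : ∀ n : ℕ, residueClass (1 : ZMod 1) n = ArithmeticFunction.vonMangoldt n := by
    intro n
    apply Set.indicator_of_mem
    exact Subsingleton.elim _ _
  have H {x : ℝ} (hx : 1 < x) :
      ∑' n, residueClass (1 : ZMod 1) n / (n : ℝ) ^ x =
        (LFunctionResidueClassAux (1 : ZMod 1) x).re + ((1 : ℕ).totient : ℝ)⁻¹ / (x - 1) := by
    refine Complex.ofReal_injective ?_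
    simp only [Complex.ofReal_tsum, Complex.ofReal_div, Complex.ofReal_cpow (Nat.cast_nonneg _),
      Complex.ofReal_natCast, Complex.ofReal_add, Complex.ofReal_inv, Complex.ofReal_sub,
      Complex.ofReal_one]
    simp_rw [← LFunctionResidueClassAux_real ha hx,
      eqOn_LFunctionResidueClassAux ha <| Set.mem_ofPred.mpr (Complex.ofReal_re x ▸ hx),
      sub_add_cancel, LSeries, LSeries.term]
    refine tsum_congr fun n ↦ ?_
    split_ifs with hn
    · simp only [hn, residueClass_apply_zero, Complex.ofReal_zero, zero_div]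
    · rfl
  have hcont : ContinuousOn (fun x : ℝ ↦ (LFunctionResidueClassAux (1 : ZMod 1) x).re)
      (Set.Icc 1 2) :=
    Complex.continuous_re.continuousOn.comp (t := Set.univ)
      (continuousOn_LFunctionResidueClassAux (1 : ZMod 1))
      (fun ⦃x⦄ a ↦ trivial) |>.comp Complex.continuous_ofReal.continuousOn fun x hx ↦ by
        simpa only [Set.mem_ofPred_eq, Complex.ofReal_re] using hx.1
  obtain ⟨C, hC⟩ := bddAbove_def.mp <| IsCompact.bddAbove_image isCompact_Icc hcont
  refine ⟨|C| + 1, by positivity, fun x hx => ?_⟩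
  have h1 : (LFunctionResidueClassAux (1 : ZMod 1) x).re ≤ C :=
    hC _ (Set.mem_image_of_mem (fun x : ℝ ↦ (LFunctionResidueClassAux (1 : ZMod 1) x).re)
      (Set.mem_Icc_of_Ioc hx))
  have h2 := H hx.1
  simp only [hres] at h2
  rw [h2]
  have h3 : 0 < x - 1 := by linarith [hx.1]
  have h4 : x - 1 ≤ 1 := by linarith [hx.2]
  have h5 : ((1 : ℕ).totient : ℝ)⁻¹ = 1 := by simp
  rw [h5, add_div]
  have h6 : C ≤ |C| / (x - 1) := by
    rw [le_div_iff₀ h3]
    nlinarith [le_abs_self C, abs_nonneg C]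
  linarith

/-- Weight of primes congruent to `1` modulo `4`. -/
noncomputable def wt (n : ℕ) : ℝ := if n.Prime ∧ n % 4 = 1 then Real.log n else 0

lemma wt_nonneg (n : ℕ) : 0 ≤ wt n := by
  unfold wt
  split_ifs
  · exact Real.log_natCast_nonneg n
  · exact le_rfl

lemma wt_le (n : ℕ) : wt n ≤ Λ n := by
  unfold wt
  split_ifs with h
  · rw [vonMangoldt_apply_prime h.1]
  · exact vonMangoldt_nonneg

lemma summable_vonMangoldt_div {x : ℝ} (hx : 1 < x) :
    Summable (fun n : ℕ => Λ n / (n : ℝ) ^ x) := by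
  have hres : ∀ n : ℕ, vonMangoldt.residueClass (1 : ZMod 1) n = Λ n := by
    intro n
    apply Set.indicator_of_mem
    exact Subsingleton.elim _ _
  have := LSeries.summable_real_of_abscissaOfAbsConv_lt (f := vonMangoldt.residueClass (1 : ZMod 1))
    (x := x) ((vonMangoldt.abscissaOfAbsConv_residueClass_le_one (1 : ZMod 1)).trans_lt
      (by exact_mod_cast hx))
  simpa only [hres] using this

lemma summable_wt_div {x : ℝ} (hx : 1 < x) :
    Summable (fun n : ℕ => wt n / (n : ℝ) ^ x) := by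
  refine Summable.of_nonneg_of_le (fun n => ?_) (fun n => ?_) (summable_vonMangoldt_div hx)
  · have := wt_nonneg n
    positivity
  · have := wt_le n
    gcongr

/-- Lower bound for the Dirichlet series of primes `1` modulo `4` near `1`. -/
lemma wt_series_ge :
    ∃ C : ℝ, ∀ x : ℝ, x ∈ Set.Ioc (1 : ℝ) 2 →
      (1 / 2) / (x - 1) - C ≤ ∑' n : ℕ, wt n / (n : ℝ) ^ x := by
  obtain ⟨C, hC⟩ := vonMangoldt.LSeries_residueClass_lower_bound (q := 4) (a := (1 : ZMod 4))
    isUnit_one
  have hs := vonMangoldt.summable_residueClass_non_primes_div (1 : ZMod 4)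
  set C' := ∑' n : ℕ, (if n.Prime then 0 else vonMangoldt.residueClass (1 : ZMod 4) n) / (n : ℝ)
    with hC'
  refine ⟨C + C', fun x hx => ?_⟩
  have h1 := hC hx
  have ht : ((4 : ℕ).totient : ℝ)⁻¹ = 1 / 2 := by
    have : (4 : ℕ).totient = 2 := by decide
    rw [this]
    norm_num
  rw [ht] at h1
  have h2 : ∑' n : ℕ, vonMangoldt.residueClass (1 : ZMod 4) n / (n : ℝ) ^ x
      ≤ ∑' n : ℕ, (wt n / (n : ℝ) ^ x
        + (if n.Prime then 0 else vonMangoldt.residueClass (1 : ZMod 4) n) / (n : ℝ)) := by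
    have hsum2 := (summable_wt_div hx.1).add hs
    have hle : ∀ n : ℕ, vonMangoldt.residueClass (1 : ZMod 4) n / (n : ℝ) ^ x
        ≤ wt n / (n : ℝ) ^ x
          + (if n.Prime then 0 else vonMangoldt.residueClass (1 : ZMod 4) n) / (n : ℝ) := by
      intro n
      have hnn := vonMangoldt.residueClass_nonneg (1 : ZMod 4) n
      have hw := wt_nonneg n
      by_cases hp : n.Prime
      · rw [if_pos hp, zero_div, add_zero]
        have : vonMangoldt.residueClass (1 : ZMod 4) n ≤ wt n := by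
          unfold wt
          by_cases h4 : n % 4 = 1
          · rw [if_pos ⟨hp, h4⟩]
            refine (vonMangoldt.residueClass_le _ n).trans ?_
            rw [vonMangoldt_apply_prime hp]
          · rw [if_neg (fun h => h4 h.2)]
            have : vonMangoldt.residueClass (1 : ZMod 4) n = 0 := by
              apply Set.indicator_of_notMem
              intro h
              have h' : (n : ZMod 4) = ((1 : ℕ) : ZMod 4) := by simpa using h
              rw [ZMod.natCast_eq_natCast_iff'] at h'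
              exact h4 (by simpa using h')
            rw [this]
        gcongr
      · rw [if_neg hp]
        have h5 : vonMangoldt.residueClass (1 : ZMod 4) n / (n : ℝ) ^ x
            ≤ vonMangoldt.residueClass (1 : ZMod 4) n / (n : ℝ) := by
          rcases n.eq_zero_or_pos with rfl | hn
          · simp
          · refine div_le_div_of_nonneg_left hnn (mod_cast hn) ?_
            conv_lhs => rw [← Real.rpow_one (n : ℝ)]
            exact Real.rpow_le_rpow_of_exponent_le (by norm_cast) hx.1.le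
        have : 0 ≤ wt n / (n : ℝ) ^ x := by positivity
        linarith
    refine Summable.tsum_le_tsum hle ?_ hsum2
    refine Summable.of_nonneg_of_le (fun n => ?_) hle hsum2
    have hnn := vonMangoldt.residueClass_nonneg (1 : ZMod 4) n
    positivity
  rw [(summable_wt_div hx.1).tsum_add hs] at h2
  linarith

/-- Lower bound for the weighted sum over primes `1` modulo `4`. -/
lemma exists_wt_sum_ge :
    ∃ c C : ℝ, ∃ N₀ : ℕ, 0 < c ∧ 3 ≤ N₀ ∧ ∀ N : ℕ, N₀ ≤ N →
      c * Real.log N - C ≤ ∑ n ∈ range (N + 1), wt n / n := by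
  obtain ⟨C₀, hC₀, h0⟩ := vonMangoldt_series_le
  obtain ⟨C₁, h1⟩ := wt_series_ge
  -- choose `lam` with `2 C₀ exp (-lam/2) ≤ 1/4`
  obtain ⟨lam, hlam1, hlam⟩ : ∃ lam : ℝ, 1 ≤ lam ∧ 2 * C₀ * Real.exp (-(lam / 2)) ≤ 1 / 4 := by
    refine ⟨max 1 (2 * Real.log (8 * C₀)), le_max_left _ _, ?_⟩
    have h2 : Real.log (8 * C₀) ≤ max 1 (2 * Real.log (8 * C₀)) / 2 := by
      have := le_max_right 1 (2 * Real.log (8 * C₀))
      linarith
    have h3 : Real.exp (-(max 1 (2 * Real.log (8 * C₀)) / 2)) ≤ Real.exp (-Real.log (8 * C₀)) :=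
      Real.exp_le_exp.2 (by linarith)
    rw [Real.exp_neg (Real.log (8 * C₀)), Real.exp_log (by positivity)] at h3
    calc 2 * C₀ * Real.exp (-(max 1 (2 * Real.log (8 * C₀)) / 2)) ≤ 2 * C₀ * (8 * C₀)⁻¹ := by gcongr
      _ = 1 / 4 := by
        field_simp
        norm_num
  refine ⟨1 / (4 * lam), C₁, max 3 ⌈Real.exp lam⌉₊, by positivity, le_max_left _ _, ?_⟩
  intro N hN
  have hN3 : 3 ≤ N := (le_max_left _ _).trans hN
  have hNe : Real.exp lam ≤ N := (Nat.le_ceil _).trans (by exact_mod_cast (le_max_right _ _).trans hN)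
  have hNpos : (0 : ℝ) < N := by exact_mod_cast (by omega : 0 < N)
  have hlog : lam ≤ Real.log N := (Real.le_log_iff_exp_le hNpos).2 hNe
  have hlogpos : 0 < Real.log N := by linarith
  set a := lam / Real.log N with ha
  have ha0 : 0 < a := by positivity
  have ha1 : a ≤ 1 := (div_le_one hlogpos).2 hlog
  have halog : a * Real.log N = lam := by
    rw [ha]
    field_simp
  have hx1 : (1 + a) ∈ Set.Ioc (1 : ℝ) 2 := ⟨by linarith, by linarith⟩
  have hx2 : (1 + a / 2) ∈ Set.Ioc (1 : ℝ) 2 := ⟨by linarith, by linarith⟩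
  -- pointwise inequality
  have hpt : ∀ n : ℕ, wt n / (n : ℝ) ^ (1 + a)
      ≤ (if n ∈ range (N + 1) then wt n / n else 0)
        + (N : ℝ) ^ (-(a / 2)) * (Λ n / (n : ℝ) ^ (1 + a / 2)) := by
    intro n
    have hw := wt_nonneg n
    have hL : 0 ≤ Λ n := vonMangoldt_nonneg
    rcases n.eq_zero_or_pos with rfl | hn
    · simp [wt]
    have hn1 : (1 : ℝ) ≤ n := by exact_mod_cast hn
    by_cases hnN : n ∈ range (N + 1)
    · rw [if_pos hnN]
      have h5 : wt n / (n : ℝ) ^ (1 + a) ≤ wt n / n := by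
        refine div_le_div_of_nonneg_left hw (by positivity) ?_
        conv_lhs => rw [← Real.rpow_one (n : ℝ)]
        exact Real.rpow_le_rpow_of_exponent_le hn1 (by linarith)
      have : 0 ≤ (N : ℝ) ^ (-(a / 2)) * (Λ n / (n : ℝ) ^ (1 + a / 2)) := by positivity
      linarith
    · rw [if_neg hnN, zero_add]
      have hNn : (N : ℝ) ≤ n := by
        simp only [mem_range] at hnN
        exact_mod_cast (by omega : N ≤ n)
      have e1 : (n : ℝ) ^ (1 + a) = (n : ℝ) ^ (1 + a / 2) * (n : ℝ) ^ (a / 2) := by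
        rw [← Real.rpow_add (by positivity)]
        congr 1
        ring
      rw [e1, Real.rpow_neg hNpos.le]
      have e2 : (N : ℝ) ^ (a / 2) ≤ (n : ℝ) ^ (a / 2) :=
        Real.rpow_le_rpow hNpos.le hNn (by positivity)
      have e3 : 0 < (N : ℝ) ^ (a / 2) := by positivity
      have e4 : 0 < (n : ℝ) ^ (1 + a / 2) := by positivity
      calc wt n / ((n : ℝ) ^ (1 + a / 2) * (n : ℝ) ^ (a / 2))
          ≤ Λ n / ((n : ℝ) ^ (1 + a / 2) * (N : ℝ) ^ (a / 2)) := by
            have := wt_le n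
            gcongr
        _ = ((N : ℝ) ^ (a / 2))⁻¹ * (Λ n / (n : ℝ) ^ (1 + a / 2)) := by
            field_simp
  have hs1 : Summable (fun n : ℕ => if n ∈ range (N + 1) then wt n / (n : ℝ) else 0) :=
    summable_of_ne_finset_zero (s := range (N + 1)) (fun n hn => if_neg hn)
  have hs2 : Summable (fun n : ℕ => (N : ℝ) ^ (-(a / 2)) * (Λ n / (n : ℝ) ^ (1 + a / 2))) :=
    (summable_vonMangoldt_div hx2.1).mul_left _
  have hsum := Summable.tsum_le_tsum hpt (summable_wt_div hx1.1) (hs1.add hs2)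
  rw [hs1.tsum_add hs2, tsum_mul_left] at hsum
  have hfin : ∑' n : ℕ, (if n ∈ range (N + 1) then wt n / (n : ℝ) else 0)
      = ∑ n ∈ range (N + 1), wt n / n := by
    rw [tsum_eq_sum (s := range (N + 1)) (fun n hn => if_neg hn)]
    exact Finset.sum_congr rfl (fun n hn => if_pos hn)
  rw [hfin] at hsum
  have h3 := h1 (1 + a) hx1
  have h4 := h0 (1 + a / 2) hx2
  have e5 : (N : ℝ) ^ (-(a / 2)) = Real.exp (-(lam / 2)) := by
    rw [Real.rpow_def_of_pos hNpos]
    congr 1
    rw [← halog]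
    ring
  rw [e5] at hsum
  have e6 : Real.exp (-(lam / 2)) * ∑' n : ℕ, Λ n / (n : ℝ) ^ (1 + a / 2) ≤ (1 / 4) / a := by
    calc Real.exp (-(lam / 2)) * ∑' n : ℕ, Λ n / (n : ℝ) ^ (1 + a / 2)
        ≤ Real.exp (-(lam / 2)) * (C₀ / (1 + a / 2 - 1)) := by gcongr
      _ = (2 * C₀ * Real.exp (-(lam / 2))) / a := by
          have : 1 + a / 2 - 1 = a / 2 := by ring
          rw [this]
          field_simp
      _ ≤ (1 / 4) / a := by gcongr
  have e7 : (1 / 2) / (1 + a - 1) = (1 / 2) / a := by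
    congr 1
    ring
  rw [e7] at h3
  have e8 : 1 / (4 * lam) * Real.log N = (1 / 4) / a := by
    rw [ha]
    field_simp
  rw [e8]
  have e9 : (1 / 2) / a = (1 / 4) / a + (1 / 4) / a := by ring
  linarith

/-- Upper bound for the weighted sum over primes. -/
lemma exists_wt_sum_le :
    ∃ C : ℝ, 0 < C ∧ ∀ N : ℕ, 3 ≤ N → ∑ n ∈ range (N + 1), wt n / n ≤ C * Real.log N := by
  obtain ⟨C₀, hC₀, h0⟩ := vonMangoldt_series_le
  refine ⟨Real.exp 1 * C₀, by positivity, fun N hN => ?_⟩
  have hNpos : (0 : ℝ) < N := by exact_mod_cast (by omega : 0 < N)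
  have hlog : 1 ≤ Real.log N := by
    rw [Real.le_log_iff_exp_le hNpos]
    have h1 : Real.exp 1 ≤ 3 := by
      have := Real.exp_one_lt_d9
      linarith
    have h2 : (3 : ℝ) ≤ N := by exact_mod_cast hN
    linarith
  have hlogpos : 0 < Real.log N := by linarith
  set a := 1 / Real.log N with ha
  have ha0 : 0 < a := by positivity
  have ha1 : a ≤ 1 := (div_le_one hlogpos).2 hlog
  have hx1 : (1 + a) ∈ Set.Ioc (1 : ℝ) 2 := ⟨by linarith, by linarith⟩
  have h1 : ∑ n ∈ range (N + 1), wt n / n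
      ≤ ∑ n ∈ range (N + 1), Real.exp 1 * (Λ n / (n : ℝ) ^ (1 + a)) := by
    apply Finset.sum_le_sum
    intro n hn
    rcases n.eq_zero_or_pos with rfl | hn0
    · simp [wt]
    have hnpos : (0 : ℝ) < n := by exact_mod_cast hn0
    have hnN : (n : ℝ) ≤ N := by
      simp only [mem_range] at hn
      exact_mod_cast (by omega : n ≤ N)
    have e1 : (n : ℝ) ^ (1 + a) ≤ n * Real.exp 1 := by
      rw [Real.rpow_add hnpos, Real.rpow_one]
      have : (n : ℝ) ^ a ≤ Real.exp 1 := by
        rw [Real.rpow_def_of_pos hnpos]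
        apply Real.exp_le_exp.2
        have h5 : Real.log n ≤ Real.log N := Real.log_le_log hnpos hnN
        calc Real.log n * a ≤ Real.log N * a := by gcongr
          _ = 1 := by
            rw [ha]
            field_simp
      gcongr
    have hw := wt_le n
    have hw0 := wt_nonneg n
    have e2 : 0 < (n : ℝ) ^ (1 + a) := by positivity
    calc wt n / n ≤ Λ n / n := by gcongr
      _ = Real.exp 1 * (Λ n / (n * Real.exp 1)) := by
          field_simp
      _ ≤ Real.exp 1 * (Λ n / (n : ℝ) ^ (1 + a)) := by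
          have : 0 ≤ Λ n := vonMangoldt_nonneg
          gcongr
  have h2 : ∑ n ∈ range (N + 1), Real.exp 1 * (Λ n / (n : ℝ) ^ (1 + a))
      ≤ Real.exp 1 * ∑' n : ℕ, Λ n / (n : ℝ) ^ (1 + a) := by
    rw [← Finset.mul_sum]
    gcongr
    refine (summable_vonMangoldt_div hx1.1).sum_le_tsum _ (fun n _ => ?_)
    have : 0 ≤ Λ n := vonMangoldt_nonneg
    positivity
  have h3 := h0 (1 + a) hx1
  have e7 : C₀ / (1 + a - 1) = C₀ * Real.log N := by
    rw [ha]
    field_simp
    ring
  rw [e7] at h3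
  calc ∑ n ∈ range (N + 1), wt n / n ≤ _ := h1
    _ ≤ _ := h2
    _ ≤ Real.exp 1 * (C₀ * Real.log N) := by gcongr
    _ = _ := by ring

/-- The primes congruent to `1` modulo `4` in `(Y, Z]`. -/
def primes14 (Y Z : ℕ) : Finset ℕ := (Finset.Ioc Y Z).filter (fun p => p.Prime ∧ p % 4 = 1)

/-- One block. -/
lemma exists_block :
    ∃ b N₀ : ℕ, 2 ≤ b ∧ 3 ≤ N₀ ∧ ∀ Y : ℕ, N₀ ≤ Y →
      (1 : ℝ) / b ≤ ∑ p ∈ primes14 Y (Y ^ b), (1 : ℝ) / p := by
  obtain ⟨c, C, N₀, hc, hN₀, hlow⟩ := exists_wt_sum_ge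
  obtain ⟨C', hC', hup⟩ := exists_wt_sum_le
  obtain ⟨b, hb⟩ := exists_nat_ge (max 2 ((1 + C' + |C|) / c))
  have hb2 : 2 ≤ b := by exact_mod_cast (le_max_left _ _).trans hb
  have hb3 : 1 + C' + |C| ≤ c * b := by
    have := (le_max_right _ _).trans hb
    rw [div_le_iff₀ hc] at this
    linarith
  refine ⟨b, N₀, hb2, hN₀, fun Y hY => ?_⟩
  have hY3 : 3 ≤ Y := hN₀.trans hY
  have hYpos : (0 : ℝ) < Y := by exact_mod_cast (by omega : 0 < Y)
  have hlogY : 1 ≤ Real.log Y := by
    rw [Real.le_log_iff_exp_le hYpos]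
    have h1 : Real.exp 1 ≤ 3 := by
      have := Real.exp_one_lt_d9
      linarith
    have h2 : (3 : ℝ) ≤ Y := by exact_mod_cast hY3
    linarith
  have hYb : Y ≤ Y ^ b := Nat.le_self_pow (by omega) Y
  have h1 := hlow (Y ^ b) (hY.trans hYb)
  have h2 := hup Y hY3
  have hlogb : Real.log ((Y ^ b : ℕ) : ℝ) = b * Real.log Y := by
    push_cast
    rw [Real.log_pow]
  rw [hlogb] at h1
  have h3 : ∑ n ∈ range (Y ^ b + 1), wt n / n - ∑ n ∈ range (Y + 1), wt n / n
      = ∑ n ∈ Finset.Ioc Y (Y ^ b), wt n / n := by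
    rw [← Finset.sum_sdiff (Finset.range_subset_range.2 (by omega : Y + 1 ≤ Y ^ b + 1)),
      add_sub_cancel_right]
    apply Finset.sum_congr _ (fun _ _ => rfl)
    ext n
    simp only [mem_sdiff, mem_range, mem_Ioc]
    omega
  have h4 : ∑ n ∈ Finset.Ioc Y (Y ^ b), wt n / n
      ≤ (b * Real.log Y) * ∑ p ∈ primes14 Y (Y ^ b), (1 : ℝ) / p := by
    unfold primes14
    rw [Finset.sum_filter, Finset.mul_sum]
    apply Finset.sum_le_sum
    intro n hn
    simp only [mem_Ioc] at hn
    have hnpos : (0 : ℝ) < n := by exact_mod_cast (by omega : 0 < n)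
    unfold wt
    split_ifs with h
    · have : Real.log n ≤ b * Real.log Y := by
        rw [← hlogb]
        apply Real.log_le_log hnpos
        exact_mod_cast hn.2
      rw [mul_one_div]
      gcongr
    · simp
  have h5 : Real.log Y ≤ ∑ n ∈ Finset.Ioc Y (Y ^ b), wt n / n := by
    rw [← h3]
    have hCC : C ≤ |C| * Real.log Y := by
      nlinarith [le_abs_self C, abs_nonneg C]
    nlinarith
  have h6 : Real.log Y ≤ (b * Real.log Y) * ∑ p ∈ primes14 Y (Y ^ b), (1 : ℝ) / p := h5.trans h4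
  have hbpos : (0 : ℝ) < b := by exact_mod_cast (by omega : 0 < b)
  rw [div_le_iff₀ hbpos]
  by_contra hcon
  push Not at hcon
  have : (b * Real.log Y) * ∑ p ∈ primes14 Y (Y ^ b), (1 : ℝ) / p < Real.log Y := by
    have e : (b * Real.log Y) * ∑ p ∈ primes14 Y (Y ^ b), (1 : ℝ) / p
        = Real.log Y * ((∑ p ∈ primes14 Y (Y ^ b), (1 : ℝ) / p) * b) := by ring
    rw [e]
    nlinarith
  linarith

/-- **Weak Mertens estimate.** For every `A` there is an exponent `K` such that for all large `Y`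
the reciprocals of the primes `p ≡ 1 (mod 4)` in `(Y, Y ^ K]` add up to at least `A`. -/
theorem exists_recip_sum_ge (A : ℝ) :
    ∃ K N₀ : ℕ, 1 ≤ K ∧ 3 ≤ N₀ ∧ ∀ Y : ℕ, N₀ ≤ Y →
      A ≤ ∑ p ∈ primes14 Y (Y ^ K), (1 : ℝ) / p := by
  obtain ⟨b, N₀, hb, hN₀, hblock⟩ := exists_block
  have hbpos : (0 : ℝ) < b := by exact_mod_cast (by omega : 0 < b)
  have key : ∀ m : ℕ, ∀ Y : ℕ, N₀ ≤ Y →
      (m : ℝ) / b ≤ ∑ p ∈ primes14 Y (Y ^ (b ^ m)), (1 : ℝ) / p := by
    intro m
    induction m with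
    | zero =>
      intro Y _
      simp only [Nat.cast_zero, zero_div]
      positivity
    | succ m ih =>
      intro Y hY
      have hY3 : 3 ≤ Y := hN₀.trans hY
      have h1 := ih Y hY
      set Z := Y ^ (b ^ m) with hZ
      have hbm : b ^ m ≠ 0 := by positivity
      have hYZ : Y ≤ Z := Nat.le_self_pow hbm Y
      have hZW : Z ≤ Z ^ b := Nat.le_self_pow (by omega) Z
      have h2 := hblock Z (hY.trans hYZ)
      have hW : Y ^ (b ^ (m + 1)) = Z ^ b := by
        rw [hZ, ← pow_mul, pow_succ]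
      have h3 : primes14 Y (Y ^ (b ^ (m + 1))) = primes14 Y Z ∪ primes14 Z (Z ^ b) := by
        rw [hW]
        ext p
        simp only [primes14, mem_filter, mem_Ioc, mem_union]
        constructor
        · rintro ⟨⟨h, h'⟩, hp⟩
          by_cases hpZ : p ≤ Z
          · exact Or.inl ⟨⟨h, hpZ⟩, hp⟩
          · exact Or.inr ⟨⟨by omega, h'⟩, hp⟩
        · rintro (⟨⟨h, h'⟩, hp⟩ | ⟨⟨h, h'⟩, hp⟩)
          · exact ⟨⟨h, by omega⟩, hp⟩
          · exact ⟨⟨by omega, h'⟩, hp⟩
      have hdisj : Disjoint (primes14 Y Z) (primes14 Z (Z ^ b)) := by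
        rw [Finset.disjoint_left]
        intro p hp hp'
        simp only [primes14, mem_filter, mem_Ioc] at hp hp'
        omega
      rw [h3, Finset.sum_union hdisj]
      push_cast
      rw [add_div]
      linarith
  obtain ⟨m, hm⟩ := exists_nat_ge (A * b)
  refine ⟨b ^ m, N₀, Nat.one_le_pow _ _ (by omega), hN₀, fun Y hY => ?_⟩
  refine le_trans ?_ (key m Y hY)
  rw [le_div_iff₀ hbpos]
  exact hm

end Vale.Agent.P015h2
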