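import Mathlib

/-!
# A Brun-type sieve upper bound

A counting lemma for integers in an interval avoiding residue classes, and the resulting upper
bound obtained from truncated inclusion-exclusion.
-/

namespace Vale.Agent.P015h2

open Finset

/-- Number of `t < T` with prescribed residue modulo `M`. -/
lemma card_range_cast_eq (T M : ℕ) (hM : 0 < M) (x : ZMod M) :
    |(((range T).filter (fun t : ℕ => (t : ZMod M) = x)).card : ℝ) - (T : ℝ) / M| ≤ 1 := by
  have : NeZero M := ⟨hM.ne'⟩
  have h1 : (range T).filter (fun t : ℕ => (t : ZMod M) = x)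
      = (range T).filter (fun t : ℕ => t ≡ x.val [MOD M]) := by
    apply Finset.filter_congr
    intro t _
    rw [← ZMod.natCast_eq_natCast_iff, ZMod.natCast_zmod_val]
  rw [h1, ← Nat.count_eq_card_filter_range, Nat.count_modEq_card T hM]
  have hM' : (0 : ℝ) < M := by exact_mod_cast hM
  have h2 : (T : ℝ) / M = ((T / M : ℕ) : ℝ) + ((T % M : ℕ) : ℝ) / M := by
    have : (T : ℝ) = M * ((T / M : ℕ) : ℝ) + ((T % M : ℕ) : ℝ) := by
      exact_mod_cast (Nat.div_add_mod T M).symm
    field_simp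
    linarith
  have h3 : (0 : ℝ) ≤ ((T % M : ℕ) : ℝ) / M := by positivity
  have h4 : ((T % M : ℕ) : ℝ) / M ≤ 1 := by
    rw [div_le_one hM']
    exact_mod_cast (Nat.mod_lt T hM).le
  rw [h2, abs_le]
  split_ifs <;> push_cast <;> constructor <;> linarith

/-- Number of `t < T` whose residues modulo the elements of `Q` lie in prescribed sets. -/
lemma card_crt (Q : Finset ℕ) (hQ : ∀ q ∈ Q, q.Prime) (Ω : ∀ q : ℕ, Finset (ZMod q)) (T : ℕ) :
    |(((range T).filter (fun t : ℕ => ∀ q ∈ Q, (t : ZMod q) ∈ Ω q)).card : ℝ)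
        - T * ∏ q ∈ Q, (((Ω q).card : ℝ) / q)| ≤ ∏ q ∈ Q, ((Ω q).card : ℝ) := by
  classical
  let a : Q → ℕ := fun i => (i : ℕ)
  have hcop : Pairwise (Function.onFun Nat.Coprime a) := by
    intro i j hij
    exact (Nat.coprime_primes (hQ _ i.2) (hQ _ j.2)).2 (fun h => hij (Subtype.ext h))
  have hpos : ∀ i : Q, 0 < a i := fun i => (hQ _ i.2).pos
  have : ∀ i : Q, NeZero (a i) := fun i => ⟨(hpos i).ne'⟩
  set M := ∏ i, a i with hM
  have hMpos : 0 < M := Finset.prod_pos (fun i _ => hpos i)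
  have : NeZero M := ⟨hMpos.ne'⟩
  let e := ZMod.prodEquivPi a hcop
  let G : Finset (ZMod M) := univ.filter (fun x => ∀ i : Q, e x i ∈ Ω (a i))
  have hG : G.card = ∏ q ∈ Q, (Ω q).card := by
    have h1 : G.card = (Fintype.piFinset (fun i : Q => Ω (a i))).card := by
      apply Finset.card_bij' (fun x _ => e x) (fun y _ => e.symm y)
      · intro x hx
        simp only [G, mem_filter, mem_univ, true_and] at hx
        exact Fintype.mem_piFinset.2 hx
      · intro y hy
        simp only [G, mem_filter, mem_univ, true_and, RingEquiv.apply_symm_apply]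
        exact Fintype.mem_piFinset.1 hy
      · intro x _
        exact RingEquiv.symm_apply_apply e x
      · intro y _
        exact RingEquiv.apply_symm_apply e y
    rw [h1, Fintype.card_piFinset, ← Finset.prod_coe_sort Q (fun q => (Ω q).card)]
  have hset : (range T).filter (fun t : ℕ => ∀ q ∈ Q, (t : ZMod q) ∈ Ω q)
      = G.biUnion (fun x => (range T).filter (fun t : ℕ => (t : ZMod M) = x)) := by
    ext t
    simp only [mem_filter, mem_biUnion, mem_range, G, mem_univ, true_and]
    constructor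
    · rintro ⟨ht, h⟩
      refine ⟨(t : ZMod M), ?_, ht, rfl⟩
      intro i
      have : e (t : ZMod M) i = (t : ZMod (a i)) := by
        rw [map_natCast]
        rfl
      rw [this]
      exact h _ i.2
    · rintro ⟨x, hx, ht, rfl⟩
      refine ⟨ht, fun q hq => ?_⟩
      have h1 := hx ⟨q, hq⟩
      have : e (t : ZMod M) ⟨q, hq⟩ = (t : ZMod (a ⟨q, hq⟩)) := by
        rw [map_natCast]
        rfl
      rw [this] at h1
      exact h1
  have hcard : (((range T).filter (fun t : ℕ => ∀ q ∈ Q, (t : ZMod q) ∈ Ω q)).card : ℝ)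
      = ∑ x ∈ G, (((range T).filter (fun t : ℕ => (t : ZMod M) = x)).card : ℝ) := by
    rw [hset, Finset.card_biUnion]
    · push_cast
      rfl
    · intro x _ y _ hxy
      rw [Function.onFun, Finset.disjoint_left]
      intro t ht ht'
      simp only [mem_filter] at ht ht'
      exact hxy (ht.2.symm.trans ht'.2)
  have hMprod : (M : ℝ) = ∏ q ∈ Q, (q : ℝ) := by
    rw [hM, ← Finset.prod_coe_sort Q (fun q => (q : ℝ))]
    push_cast
    rfl
  have hmain : (T : ℝ) * ∏ q ∈ Q, (((Ω q).card : ℝ) / q) = ∑ _x ∈ G, (T : ℝ) / M := by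
    rw [Finset.sum_const, nsmul_eq_mul, hG, Finset.prod_div_distrib, ← hMprod]
    push_cast
    ring
  rw [hcard, hmain, ← Finset.sum_sub_distrib]
  calc |∑ x ∈ G, ((((range T).filter (fun t : ℕ => (t : ZMod M) = x)).card : ℝ) - (T : ℝ) / M)|
      ≤ ∑ x ∈ G, |(((range T).filter (fun t : ℕ => (t : ZMod M) = x)).card : ℝ) - (T : ℝ) / M| :=
        Finset.abs_sum_le_sum_abs _ _
    _ ≤ ∑ _x ∈ G, (1 : ℝ) := Finset.sum_le_sum (fun x _ => card_range_cast_eq T M hMpos x)
    _ = ∏ q ∈ Q, ((Ω q).card : ℝ) := by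
        rw [Finset.sum_const, nsmul_eq_mul, hG]
        push_cast
        ring

/-- Bonferroni inequality for the empty set indicator. -/
lemma bonferroni {α : Type*} [DecidableEq α] (S : Finset α) {J : ℕ} (hJ : Even J) :
    (if S = ∅ then (1 : ℝ) else 0)
      ≤ ∑ Q ∈ S.powerset.filter (fun Q => Q.card ≤ J), (-1 : ℝ) ^ Q.card := by
  have h1 : ∑ Q ∈ S.powerset.filter (fun Q => Q.card ≤ J), (-1 : ℝ) ^ Q.card
      = ∑ Q ∈ S.powerset, (fun m : ℕ => if m ≤ J then (-1 : ℝ) ^ m else 0) Q.card := by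
    rw [Finset.sum_filter]
  rw [h1, Finset.sum_powerset_apply_card (fun m : ℕ => if m ≤ J then (-1 : ℝ) ^ m else 0)]
  by_cases hS : S = ∅
  · subst hS
    simp
  · rw [if_neg hS]
    have hc : S.card ≠ 0 := by simpa using hS
    have h2 : ∑ m ∈ range (S.card + 1), (S.card.choose m) • (if m ≤ J then (-1 : ℝ) ^ m else 0)
        = ∑ m ∈ range (J + 1), ((-1 : ℝ) ^ m * (S.card.choose m)) := by
      have e1 : ∑ m ∈ range (S.card + 1), (S.card.choose m) • (if m ≤ J then (-1 : ℝ) ^ m else 0)
          = ∑ m ∈ range (max S.card J + 1),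
              (S.card.choose m) • (if m ≤ J then (-1 : ℝ) ^ m else 0) := by
        apply Finset.sum_subset
        · intro m hm
          simp only [mem_range] at hm ⊢
          have := le_max_left S.card J
          omega
        · intro m _ hm
          have : S.card < m := by simpa using hm
          rw [Nat.choose_eq_zero_of_lt this, zero_smul]
      have e2 : ∑ m ∈ range (J + 1), ((-1 : ℝ) ^ m * (S.card.choose m))
          = ∑ m ∈ range (max S.card J + 1),
              (S.card.choose m) • (if m ≤ J then (-1 : ℝ) ^ m else 0) := by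
        trans ∑ m ∈ range (J + 1), (S.card.choose m) • (if m ≤ J then (-1 : ℝ) ^ m else 0)
        · apply Finset.sum_congr rfl
          intro m hm
          have : m ≤ J := by
            simp only [mem_range] at hm
            omega
          rw [if_pos this, nsmul_eq_mul]
          ring
        · apply Finset.sum_subset
          · intro m hm
            simp only [mem_range] at hm ⊢
            have := le_max_right S.card J
            omega
          · intro m _ hm
            have : ¬ m ≤ J := by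
              simp only [mem_range] at hm
              omega
            rw [if_neg this, smul_zero]
      rw [e1, e2]
    rw [h2]
    have h3 := @Int.alternating_sum_range_choose_eq_choose (S.card - 1) J
    rw [Nat.sub_add_cancel (Nat.one_le_iff_ne_zero.2 hc)] at h3
    have h4 : (∑ m ∈ range (J + 1), ((-1 : ℝ) ^ m * (S.card.choose m)))
        = ((∑ m ∈ range (J + 1), ((-1 : ℤ) ^ m * (S.card.choose m)) : ℤ) : ℝ) := by
      push_cast
      rfl
    rw [h4, h3]
    push_cast
    rw [hJ.neg_one_pow, one_mul]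
    positivity

/-- Rankin's trick for the tail of the inclusion-exclusion sum. -/
lemma truncated_le (P : Finset ℕ) (x : ℕ → ℝ) (hx : ∀ p ∈ P, 0 ≤ x p) (J : ℕ) :
    ∑ Q ∈ P.powerset.filter (fun Q => Q.card ≤ J), (-1 : ℝ) ^ Q.card * ∏ q ∈ Q, x q
      ≤ ∏ p ∈ P, (1 - x p) + Real.exp (-(J : ℝ)) * ∏ p ∈ P, (1 + Real.exp 1 * x p) := by
  classical
  have h1 : ∏ p ∈ P, (1 - x p) = ∑ Q ∈ P.powerset, (-1 : ℝ) ^ Q.card * ∏ q ∈ Q, x q := by
    have : ∏ p ∈ P, (1 - x p) = ∏ p ∈ P, ((-x p) + 1) := by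
      apply Finset.prod_congr rfl
      intros
      ring
    rw [this, Finset.prod_add]
    apply Finset.sum_congr rfl
    intro Q _
    rw [Finset.prod_neg, Finset.prod_const_one, mul_one]
  have h2 : ∏ p ∈ P, (1 + Real.exp 1 * x p)
      = ∑ Q ∈ P.powerset, Real.exp Q.card * ∏ q ∈ Q, x q := by
    have : ∏ p ∈ P, (1 + Real.exp 1 * x p) = ∏ p ∈ P, (Real.exp 1 * x p + 1) := by
      apply Finset.prod_congr rfl
      intros
      ring
    rw [this, Finset.prod_add]
    apply Finset.sum_congr rfl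
    intro Q _
    rw [Finset.prod_mul_distrib, Finset.prod_const, Finset.prod_const_one, mul_one,
      ← Real.exp_nat_mul, mul_one]
  have h3 : ∑ Q ∈ P.powerset, (-1 : ℝ) ^ Q.card * ∏ q ∈ Q, x q
      = ∑ Q ∈ P.powerset.filter (fun Q => Q.card ≤ J), (-1 : ℝ) ^ Q.card * ∏ q ∈ Q, x q
        + ∑ Q ∈ P.powerset.filter (fun Q => ¬ Q.card ≤ J), (-1 : ℝ) ^ Q.card * ∏ q ∈ Q, x q :=
    (Finset.sum_filter_add_sum_filter_not _ _ _).symm
  have h4 : -∑ Q ∈ P.powerset.filter (fun Q => ¬ Q.card ≤ J), (-1 : ℝ) ^ Q.card * ∏ q ∈ Q, x q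
      ≤ Real.exp (-(J : ℝ)) * ∏ p ∈ P, (1 + Real.exp 1 * x p) := by
    rw [h2, Finset.mul_sum, ← Finset.sum_neg_distrib]
    have hnn : ∀ Q ∈ P.powerset, 0 ≤ ∏ q ∈ Q, x q := by
      intro Q hQ
      exact Finset.prod_nonneg (fun q hq => hx q (Finset.mem_powerset.1 hQ hq))
    calc ∑ Q ∈ P.powerset.filter (fun Q => ¬ Q.card ≤ J), -((-1 : ℝ) ^ Q.card * ∏ q ∈ Q, x q)
        ≤ ∑ Q ∈ P.powerset.filter (fun Q => ¬ Q.card ≤ J),
            Real.exp (-(J : ℝ)) * (Real.exp Q.card * ∏ q ∈ Q, x q) := by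
          apply Finset.sum_le_sum
          intro Q hQ
          rw [Finset.mem_filter] at hQ
          have hn := hnn Q hQ.1
          have hJ : (J : ℝ) ≤ Q.card := by
            have := hQ.2
            push Not at this
            exact_mod_cast this.le
          have h5 : 1 ≤ Real.exp (-(J : ℝ)) * Real.exp Q.card := by
            rw [← Real.exp_add]
            apply Real.one_le_exp
            linarith
          have h6 : -((-1 : ℝ) ^ Q.card) ≤ 1 := by
            rcases neg_one_pow_eq_or ℝ Q.card with h | h <;> rw [h] <;> norm_num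
          calc -((-1 : ℝ) ^ Q.card * ∏ q ∈ Q, x q) = (-((-1 : ℝ) ^ Q.card)) * ∏ q ∈ Q, x q := by ring
            _ ≤ 1 * ∏ q ∈ Q, x q := mul_le_mul_of_nonneg_right h6 hn
            _ ≤ (Real.exp (-(J : ℝ)) * Real.exp Q.card) * ∏ q ∈ Q, x q :=
                mul_le_mul_of_nonneg_right h5 hn
            _ = _ := by ring
      _ ≤ ∑ Q ∈ P.powerset, Real.exp (-(J : ℝ)) * (Real.exp Q.card * ∏ q ∈ Q, x q) := by
          apply Finset.sum_le_sum_of_subset_of_nonneg (Finset.filter_subset _ _)
          intro Q hQ _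
          have := hnn Q hQ
          positivity
  rw [h1, h3]
  linarith

/-- The sum of the error terms. -/
lemma error_le (P : Finset ℕ) (k J : ℕ) :
    ∑ Q ∈ P.powerset.filter (fun Q => Q.card ≤ J), ((k : ℝ)) ^ Q.card
      ≤ (1 + (k : ℝ) * P.card) ^ J := by
  have h1 : ∑ Q ∈ P.powerset.filter (fun Q => Q.card ≤ J), ((k : ℝ)) ^ Q.card
      = ∑ Q ∈ P.powerset, (fun m : ℕ => if m ≤ J then (k : ℝ) ^ m else 0) Q.card := by
    rw [Finset.sum_filter]
  rw [h1, Finset.sum_powerset_apply_card (fun m : ℕ => if m ≤ J then (k : ℝ) ^ m else 0)]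
  have h2 : (1 + (k : ℝ) * P.card) ^ J
      = ∑ m ∈ range (J + 1), ((k : ℝ) * P.card) ^ m * (J.choose m) := by
    rw [add_comm, add_pow]
    apply Finset.sum_congr rfl
    intros
    ring
  rw [h2]
  calc ∑ m ∈ range (P.card + 1), (P.card.choose m) • (if m ≤ J then (k : ℝ) ^ m else 0)
      = ∑ m ∈ (range (P.card + 1)).filter (fun m => m ≤ J), (P.card.choose m) * (k : ℝ) ^ m := by
        rw [Finset.sum_filter]
        apply Finset.sum_congr rfl
        intro m _
        split_ifs <;> simp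
    _ ≤ ∑ m ∈ (range (P.card + 1)).filter (fun m => m ≤ J),
          ((k : ℝ) * P.card) ^ m * (J.choose m) := by
        apply Finset.sum_le_sum
        intro m hm
        have hmJ : m ≤ J := (Finset.mem_filter.1 hm).2
        have h3 : ((P.card.choose m : ℕ) : ℝ) ≤ (P.card : ℝ) ^ m := by
          exact_mod_cast Nat.choose_le_pow P.card m
        have h4 : (1 : ℝ) ≤ (J.choose m : ℝ) := by
          exact_mod_cast Nat.choose_pos hmJ
        calc ((P.card.choose m : ℕ) : ℝ) * (k : ℝ) ^ m ≤ (P.card : ℝ) ^ m * (k : ℝ) ^ m := by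
              gcongr
          _ = ((k : ℝ) * P.card) ^ m * 1 := by
              rw [mul_pow]
              ring
          _ ≤ ((k : ℝ) * P.card) ^ m * (J.choose m) := by
              gcongr
    _ ≤ ∑ m ∈ range (J + 1), ((k : ℝ) * P.card) ^ m * (J.choose m) := by
        apply Finset.sum_le_sum_of_subset_of_nonneg
        · intro m hm
          simp only [mem_filter, mem_range] at hm ⊢
          omega
        · intro m _ _
          positivity

/-- **Brun-type sieve bound.** The number of `t < T` that avoid `k` residue classes modulo every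
prime of `P`. -/
theorem sieve_bound (P : Finset ℕ) (hP : ∀ p ∈ P, p.Prime) (Ω : ∀ p : ℕ, Finset (ZMod p))
    (k : ℕ) (hk : ∀ p ∈ P, (Ω p).card = k) (T J : ℕ) (hJ : Even J) :
    (((range T).filter (fun t : ℕ => ∀ p ∈ P, (t : ZMod p) ∉ Ω p)).card : ℝ)
      ≤ T * (∏ p ∈ P, (1 - (k : ℝ) / p)
          + Real.exp (-(J : ℝ)) * ∏ p ∈ P, (1 + Real.exp 1 * ((k : ℝ) / p)))
        + (1 + (k : ℝ) * P.card) ^ J := by
  classical
  let S : ℕ → Finset ℕ := fun t => P.filter (fun p => (t : ZMod p) ∈ Ω p)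
  have h1 : (((range T).filter (fun t : ℕ => ∀ p ∈ P, (t : ZMod p) ∉ Ω p)).card : ℝ)
      = ∑ t ∈ range T, (if S t = ∅ then (1 : ℝ) else 0) := by
    rw [Finset.card_filter]
    push_cast
    apply Finset.sum_congr rfl
    intro t _
    have : (∀ p ∈ P, (t : ZMod p) ∉ Ω p) ↔ S t = ∅ := by
      simp only [S, Finset.filter_eq_empty_iff]
    simp only [this]
  have h2 : ∀ t, (if S t = ∅ then (1 : ℝ) else 0)
      ≤ ∑ Q ∈ P.powerset.filter (fun Q => Q.card ≤ J),
          (-1 : ℝ) ^ Q.card * (if ∀ q ∈ Q, (t : ZMod q) ∈ Ω q then (1 : ℝ) else 0) := by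
    intro t
    refine (bonferroni (S t) hJ).trans (le_of_eq ?_)
    have e1 : (S t).powerset.filter (fun Q => Q.card ≤ J)
        = (P.powerset.filter (fun Q => Q.card ≤ J)).filter
            (fun Q => ∀ q ∈ Q, (t : ZMod q) ∈ Ω q) := by
      ext Q
      simp only [S, mem_filter, mem_powerset, Finset.subset_iff]
      constructor
      · rintro ⟨h, h'⟩
        exact ⟨⟨fun q hq => (h hq).1, h'⟩, fun q hq => (h hq).2⟩
      · rintro ⟨⟨h, h'⟩, h''⟩
        exact ⟨fun q hq => ⟨h hq, h'' q hq⟩, h'⟩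
    rw [e1, Finset.sum_filter]
    apply Finset.sum_congr rfl
    intro Q _
    split_ifs <;> simp
  have h3 : ∑ t ∈ range T, (if S t = ∅ then (1 : ℝ) else 0)
      ≤ ∑ Q ∈ P.powerset.filter (fun Q => Q.card ≤ J), (-1 : ℝ) ^ Q.card *
          (((range T).filter (fun t : ℕ => ∀ q ∈ Q, (t : ZMod q) ∈ Ω q)).card : ℝ) := by
    refine (Finset.sum_le_sum (fun t _ => h2 t)).trans (le_of_eq ?_)
    rw [Finset.sum_comm]
    apply Finset.sum_congr rfl
    intro Q _
    rw [← Finset.mul_sum, Finset.card_filter]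
    push_cast
    rfl
  have h4 : ∀ Q ∈ P.powerset.filter (fun Q => Q.card ≤ J), (-1 : ℝ) ^ Q.card *
          (((range T).filter (fun t : ℕ => ∀ q ∈ Q, (t : ZMod q) ∈ Ω q)).card : ℝ)
        ≤ T * ((-1 : ℝ) ^ Q.card * ∏ q ∈ Q, ((k : ℝ) / q)) + (k : ℝ) ^ Q.card := by
    intro Q hQ
    have hQP : Q ⊆ P := Finset.mem_powerset.1 (Finset.mem_filter.1 hQ).1
    have hc := card_crt Q (fun q hq => hP q (hQP hq)) Ω T
    have e1 : ∏ q ∈ Q, (((Ω q).card : ℝ) / q) = ∏ q ∈ Q, ((k : ℝ) / q) := by
      apply Finset.prod_congr rfl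
      intro q hq
      rw [hk q (hQP hq)]
    have e2 : ∏ q ∈ Q, ((Ω q).card : ℝ) = (k : ℝ) ^ Q.card := by
      rw [← Finset.prod_const]
      apply Finset.prod_congr rfl
      intro q hq
      rw [hk q (hQP hq)]
    rw [e1, e2, abs_le] at hc
    rcases neg_one_pow_eq_or ℝ Q.card with h | h <;> rw [h] <;> linarith [hc.1, hc.2]
  rw [h1]
  refine h3.trans ((Finset.sum_le_sum h4).trans ?_)
  rw [Finset.sum_add_distrib, ← Finset.mul_sum]
  have h5 := truncated_le P (fun p => (k : ℝ) / p) (fun p _ => by positivity) J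
  have h6 := error_le P k J
  have hT : (0 : ℝ) ≤ T := by positivity
  have h7 := mul_le_mul_of_nonneg_left h5 hT
  linarith

end Vale.Agent.P015h2
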