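import Mathlib
import Vale.Agent.P015_h2.Sieve
import Vale.Agent.P015_h2.Recip

/-!
# Sieving Gaussian primes along a direction
-/

namespace Vale.Agent.P015h2

open Finset

/-- For `p ≡ 1 (mod 4)` there is a ring homomorphism `ℤ[i] → ℤ/p`. -/
lemma exists_hom {p : ℕ} (hp : p.Prime) (h4 : p % 4 = 1) : Nonempty (GaussianInt →+* ZMod p) := by
  have : Fact p.Prime := ⟨hp⟩
  have h1 : IsSquare (-1 : ZMod p) := ZMod.exists_sq_eq_neg_one_iff.2 (by omega)
  obtain ⟨r, hr⟩ := h1
  exact ⟨Zsqrtd.lift ⟨r, by rw [← hr]; simp⟩⟩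

lemma dvd_norm_of_hom_eq_zero {p : ℕ} (φ : GaussianInt →+* ZMod p) {z : GaussianInt}
    (hz : φ z = 0) : (p : ℤ) ∣ z.norm := by
  have h1 : ((z.norm : ℤ) : ZMod p) = 0 := by
    have h2 : φ ((z.norm : ℤ) : GaussianInt) = φ z * φ (star z) := by
      rw [Zsqrtd.norm_eq_mul_conj, map_mul]
    rw [map_intCast] at h2
    rw [h2, hz, zero_mul]
  exact (ZMod.intCast_zmod_eq_zero_iff_dvd _ _).1 h1

/-- A Gaussian prime whose norm is divisible by the rational prime `p` has norm at most `p ^ 2`. -/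
lemma norm_le_of_prime_of_dvd {p : ℕ} (hp : p.Prime) {z : GaussianInt} (hz : Prime z)
    (h : (p : ℤ) ∣ z.norm) : z.norm ≤ (p : ℤ) ^ 2 := by
  obtain ⟨m, hm⟩ := h
  have hznorm : 0 < z.norm := GaussianInt.norm_pos.2 hz.ne_zero
  have hppos : (0 : ℤ) < p := by exact_mod_cast hp.pos
  have hmpos : 0 < m := by
    rw [hm] at hznorm
    exact (mul_pos_iff_of_pos_left hppos).1 hznorm
  have h1 : z * star z = ((p : ℤ) : GaussianInt) * ((m : ℤ) : GaussianInt) := by
    rw [← Zsqrtd.norm_eq_mul_conj, hm]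
    push_cast
    ring
  have h2 : z ∣ ((p : ℤ) : GaussianInt) * ((m : ℤ) : GaussianInt) := ⟨star z, h1.symm⟩
  rcases hz.dvd_or_dvd h2 with h3 | h3
  · -- `z ∣ p`
    obtain ⟨y, hy⟩ := h3
    have h4 : (p : ℤ) * p = z.norm * y.norm := by
      rw [← Zsqrtd.norm_mul, ← hy, Zsqrtd.norm_intCast]
    have h5 : 0 < y.norm := by
      have : 0 < z.norm * y.norm := by
        rw [← h4]
        positivity
      exact (mul_pos_iff_of_pos_left hznorm).1 this
    nlinarith
  · -- `z ∣ m`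
    obtain ⟨y, hy⟩ := h3
    have h4 : star z = ((p : ℤ) : GaussianInt) * y := by
      have : z * star z = z * (((p : ℤ) : GaussianInt) * y) := by
        rw [h1, hy]
        ring
      exact mul_left_cancel₀ hz.ne_zero this
    have h5 : z = ((p : ℤ) : GaussianInt) * star y := by
      have := congrArg star h4
      rw [star_star, star_mul] at this
      rw [this, mul_comm]
      congr 1
    have hirr : Irreducible z := hz.irreducible
    rw [h5] at hirr
    have hpu : ¬ IsUnit (((p : ℤ) : GaussianInt)) := by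
      intro hu
      have h6 := Zsqrtd.norm_eq_one_iff.2 hu
      rw [Zsqrtd.norm_intCast] at h6
      have h7 : ((p : ℤ) * p).natAbs = p * p := by
        rw [Int.natAbs_mul, Int.natAbs_natCast]
      rw [h7] at h6
      have := hp.one_lt
      nlinarith
    have hyu : IsUnit (star y) := (hirr.isUnit_or_isUnit rfl).resolve_left hpu
    have h6 : (star y).norm.natAbs = 1 := Zsqrtd.norm_eq_one_iff.2 hyu
    have h7 : (star y).norm = 1 := by
      have h8 : 0 ≤ (star y).norm := GaussianInt.norm_nonneg _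
      omega
    rw [h5, Zsqrtd.norm_mul, Zsqrtd.norm_intCast, h7]
    nlinarith

open scoped Classical in
/-- The core counting lemma: translates of a set `S` of `k` Gaussian integers along a direction `w`
that consist of Gaussian primes of large norm. -/
theorem core_count (P : Finset ℕ) (hP : ∀ p ∈ P, p.Prime ∧ p % 4 = 1)
    (S : Finset GaussianInt) (hS : ∀ p ∈ P, ∀ s ∈ S, ∀ s' ∈ S, (s - s').norm < p)
    (w : GaussianInt) (hw : ∀ p ∈ P, ¬ (p : ℤ) ∣ w.norm) (c : GaussianInt)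
    (T : ℕ) (A : ℕ) (hA : (A : ℝ) ≤ ∑ p ∈ P, (1 : ℝ) / p) (hA' : ∑ p ∈ P, (1 : ℝ) / p ≤ A + 1) :
    (((range T).filter (fun t : ℕ => ∀ s ∈ S, Prime (c + s + t * w) ∧
        ∀ p ∈ P, (p : ℤ) ^ 2 < (c + s + t * w).norm)).card : ℝ)
      ≤ 2 * T * Real.exp (-((S.card : ℝ) * A))
        + (1 + (S.card : ℝ) * P.card) ^ (4 * S.card * (A + 1)) := by
  set k := S.card with hk
  let Ω : ∀ p : ℕ, Finset (ZMod p) := fun p =>
    if h : p.Prime ∧ p % 4 = 1 then
      S.image (fun s => -((exists_hom h.1 h.2).some (c + s)) * ((exists_hom h.1 h.2).some w)⁻¹)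
    else ∅
  have hΩ : ∀ p ∈ P, ∃ φ : GaussianInt →+* ZMod p,
      Ω p = S.image (fun s => -(φ (c + s)) * (φ w)⁻¹) := by
    intro p hp
    have h := hP p hp
    refine ⟨(exists_hom h.1 h.2).some, ?_⟩
    simp only [Ω, dif_pos h]
  have hcard : ∀ p ∈ P, (Ω p).card = k := by
    intro p hp
    have : Fact p.Prime := ⟨(hP p hp).1⟩
    obtain ⟨φ, hφ⟩ := hΩ p hp
    have hw0 : φ w ≠ 0 := fun h => hw p hp (dvd_norm_of_hom_eq_zero φ h)
    rw [hφ, Finset.card_image_of_injOn]
    intro s hs s' hs' hss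
    have h1 : φ (c + s) = φ (c + s') := by
      have h2 : -(φ (c + s)) * (φ w)⁻¹ = -(φ (c + s')) * (φ w)⁻¹ := hss
      have h3 := mul_right_cancel₀ (inv_ne_zero hw0) h2
      exact neg_injective h3
    have h2 : φ (s - s') = 0 := by
      rw [map_add, map_add] at h1
      rw [map_sub]
      exact sub_eq_zero.2 (add_left_cancel h1)
    have h3 := dvd_norm_of_hom_eq_zero φ h2
    by_contra hne
    have h4 : 0 < (s - s').norm := GaussianInt.norm_pos.2 (sub_ne_zero.2 hne)
    have h5 := hS p hp s hs s' hs'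
    have h6 := Int.le_of_dvd h4 h3
    omega
  have hsub : (range T).filter (fun t : ℕ => ∀ s ∈ S, Prime (c + s + t * w) ∧
        ∀ p ∈ P, (p : ℤ) ^ 2 < (c + s + t * w).norm)
      ⊆ (range T).filter (fun t : ℕ => ∀ p ∈ P, (t : ZMod p) ∉ Ω p) := by
    intro t ht
    rw [Finset.mem_filter] at ht ⊢
    refine ⟨ht.1, fun p hp hmem => ?_⟩
    have : Fact p.Prime := ⟨(hP p hp).1⟩
    obtain ⟨φ, hφ⟩ := hΩ p hp
    have hw0 : φ w ≠ 0 := fun h => hw p hp (dvd_norm_of_hom_eq_zero φ h)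
    rw [hφ, Finset.mem_image] at hmem
    obtain ⟨s, hs, hst⟩ := hmem
    have h1 : φ (c + s + t * w) = 0 := by
      rw [map_add, map_mul, map_natCast, ← hst]
      field_simp
      ring
    obtain ⟨h2, h3⟩ := ht.2 s hs
    have h4 := norm_le_of_prime_of_dvd (hP p hp).1 h2 (dvd_norm_of_hom_eq_zero φ h1)
    have h5 := h3 p hp
    omega
  have hJ : Even (4 * k * (A + 1)) := ⟨2 * k * (A + 1), by ring⟩
  have h1 := sieve_bound P (fun p hp => (hP p hp).1) Ω k hcard T (4 * k * (A + 1)) hJ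
  have hkp : ∀ p ∈ P, (k : ℝ) / p ≤ 1 := by
    intro p hp
    have : Fact p.Prime := ⟨(hP p hp).1⟩
    have hppos : (0 : ℝ) < p := by exact_mod_cast (hP p hp).1.pos
    rw [div_le_one hppos]
    have h2 := Finset.card_le_univ (Ω p)
    rw [hcard p hp, ZMod.card] at h2
    exact_mod_cast h2
  have hsum : ∑ p ∈ P, (k : ℝ) / p = k * ∑ p ∈ P, (1 : ℝ) / p := by
    rw [Finset.mul_sum]
    apply Finset.sum_congr rfl
    intros
    ring
  have h2 : ∏ p ∈ P, (1 - (k : ℝ) / p) ≤ Real.exp (-((k : ℝ) * A)) := by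
    calc ∏ p ∈ P, (1 - (k : ℝ) / p) ≤ ∏ p ∈ P, Real.exp (-((k : ℝ) / p)) := by
          apply Finset.prod_le_prod
          · intro p hp
            linarith [hkp p hp]
          · intro p _
            have := Real.add_one_le_exp (-((k : ℝ) / p))
            linarith
      _ = Real.exp (-(k * ∑ p ∈ P, (1 : ℝ) / p)) := by
          rw [← Real.exp_sum, Finset.sum_neg_distrib, hsum]
      _ ≤ Real.exp (-((k : ℝ) * A)) := by
          apply Real.exp_le_exp.2
          have : (k : ℝ) * A ≤ k * ∑ p ∈ P, (1 : ℝ) / p := by gcongr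
          linarith
  have h3 : ∏ p ∈ P, (1 + Real.exp 1 * ((k : ℝ) / p)) ≤ Real.exp (3 * ((k : ℝ) * (A + 1))) := by
    calc ∏ p ∈ P, (1 + Real.exp 1 * ((k : ℝ) / p))
        ≤ ∏ p ∈ P, Real.exp (Real.exp 1 * ((k : ℝ) / p)) := by
          apply Finset.prod_le_prod
          · intro p _
            positivity
          · intro p _
            have := Real.add_one_le_exp (Real.exp 1 * ((k : ℝ) / p))
            linarith
      _ = Real.exp (Real.exp 1 * (k * ∑ p ∈ P, (1 : ℝ) / p)) := by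
          rw [← Real.exp_sum, ← Finset.mul_sum, hsum]
      _ ≤ Real.exp (3 * ((k : ℝ) * (A + 1))) := by
          apply Real.exp_le_exp.2
          have he : Real.exp 1 ≤ 3 := by
            have := Real.exp_one_lt_d9
            linarith
          gcongr
  have h4 : Real.exp (-((4 * k * (A + 1) : ℕ) : ℝ)) * ∏ p ∈ P, (1 + Real.exp 1 * ((k : ℝ) / p))
      ≤ Real.exp (-((k : ℝ) * A)) := by
    calc Real.exp (-((4 * k * (A + 1) : ℕ) : ℝ)) * ∏ p ∈ P, (1 + Real.exp 1 * ((k : ℝ) / p))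
        ≤ Real.exp (-((4 * k * (A + 1) : ℕ) : ℝ)) * Real.exp (3 * ((k : ℝ) * (A + 1))) := by gcongr
      _ = Real.exp (-((k : ℝ) * A) - k) := by
          rw [← Real.exp_add]
          congr 1
          push_cast
          ring
      _ ≤ Real.exp (-((k : ℝ) * A)) := by
          apply Real.exp_le_exp.2
          have : (0 : ℝ) ≤ k := by positivity
          linarith
  have h5 : (((range T).filter (fun t : ℕ => ∀ s ∈ S, Prime (c + s + t * w) ∧
        ∀ p ∈ P, (p : ℤ) ^ 2 < (c + s + t * w).norm)).card : ℝ)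
      ≤ (((range T).filter (fun t : ℕ => ∀ p ∈ P, (t : ZMod p) ∉ Ω p)).card : ℝ) := by
    exact_mod_cast Finset.card_le_card hsub
  have hT : (0 : ℝ) ≤ T := by positivity
  calc _ ≤ _ := h5
    _ ≤ _ := h1
    _ ≤ T * (Real.exp (-((k : ℝ) * A)) + Real.exp (-((k : ℝ) * A)))
        + (1 + (k : ℝ) * P.card) ^ (4 * k * (A + 1)) := by gcongr
    _ = _ := by ring

/-- A finset of weights at most one with large total has a subset with total in `[A, A+1]`. -/
lemma exists_subset_sum (P : Finset ℕ) (f : ℕ → ℝ) (hf : ∀ p ∈ P, 0 ≤ f p ∧ f p ≤ 1) (A : ℝ)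
    (hA : A ≤ ∑ p ∈ P, f p) (hA0 : 0 ≤ A) :
    ∃ Q ⊆ P, A ≤ ∑ p ∈ Q, f p ∧ ∑ p ∈ Q, f p ≤ A + 1 := by
  classical
  induction P using Finset.induction_on with
  | empty =>
    refine ⟨∅, Finset.Subset.refl _, hA, ?_⟩
    simp
    linarith
  | insert a P ha ih =>
    by_cases h : A ≤ ∑ p ∈ P, f p
    · obtain ⟨Q, hQ, h1, h2⟩ := ih (fun p hp => hf p (Finset.mem_insert_of_mem hp)) h
      exact ⟨Q, hQ.trans (Finset.subset_insert _ _), h1, h2⟩
    · push Not at h
      refine ⟨insert a P, Finset.Subset.refl _, hA, ?_⟩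
      rw [Finset.sum_insert ha]
      have := (hf a (Finset.mem_insert_self a P)).2
      linarith

end Vale.Agent.P015h2
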