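import Mathlib
import Vale.Agent.P015_h2.Gauss

/-!
# The core counting estimate in asymptotic form
-/

namespace Vale.Agent.P015h2

open Finset

/-- The length of the chains. -/
noncomputable def kk (c : ℝ) (T : ℕ) : ℕ := ⌊c * Real.log T / Real.log (Real.log T)⌋₊

/-- The primes above `Y` dividing a number `n ≤ T ^ 4` have a small sum of reciprocals. -/
lemma bad_sum_le (Y Z n T : ℕ) (hn : 0 < n) (hnT : n ≤ T ^ 4) (hT : 1 ≤ T) (hY : 1 ≤ Y)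
    (hYT : 8 * Real.log T ≤ Y) :
    ∑ p ∈ (primes14 Y Z).filter (fun p => p ∣ n), (1 : ℝ) / p ≤ 1 := by
  set B := (primes14 Y Z).filter (fun p => p ∣ n) with hB
  have hBp : ∀ p ∈ B, p.Prime ∧ Y < p ∧ p ∣ n := by
    intro p hp
    simp only [hB, primes14, mem_filter, mem_Ioc] at hp
    exact ⟨hp.1.2.1, hp.1.1.1, hp.2⟩
  have h1 : (2 : ℕ) ^ B.card ≤ n := by
    calc 2 ^ B.card = ∏ _p ∈ B, 2 := by rw [Finset.prod_const]
      _ ≤ ∏ p ∈ B, p := Finset.prod_le_prod' (fun p hp => (hBp p hp).1.two_le)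
      _ ≤ n := Nat.le_of_dvd hn (Finset.prod_primes_dvd n (fun p hp => (hBp p hp).1.prime)
          (fun p hp => (hBp p hp).2.2))
  have h2 : (2 : ℝ) ^ B.card ≤ (T : ℝ) ^ 4 := by exact_mod_cast h1.trans hnT
  have hTpos : (0 : ℝ) < T := by exact_mod_cast hT
  have h3 := Real.log_le_log (by positivity) h2
  rw [Real.log_pow, Real.log_pow] at h3
  have h4 := Real.log_two_gt_d9
  have h5 : (B.card : ℝ) ≤ 8 * Real.log T := by
    have h6 : (B.card : ℝ) * (1 / 2) ≤ B.card * Real.log 2 := by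
      have : (1 / 2 : ℝ) ≤ Real.log 2 := by linarith
      gcongr
    push_cast at h3
    linarith
  have hYpos : (0 : ℝ) < Y := by exact_mod_cast hY
  calc ∑ p ∈ B, (1 : ℝ) / p ≤ ∑ _p ∈ B, (1 : ℝ) / Y := by
        apply Finset.sum_le_sum
        intro p hp
        have : (Y : ℝ) ≤ p := by exact_mod_cast (hBp p hp).2.1.le
        gcongr
    _ = B.card / Y := by
        rw [Finset.sum_const, nsmul_eq_mul]
        ring
    _ ≤ 1 := by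
        rw [div_le_one hYpos]
        linarith

/-- The error term of the sieve is small. -/
lemma term2_le (k Pc K A E Y T : ℕ) (ℓ c : ℝ) (hℓ3 : 3 ≤ ℓ) (hT : (T : ℝ) = Real.exp ℓ)
    (hkY : (k : ℝ) + 1 ≤ Y) (hPcard : Pc ≤ Y ^ K) (hlogY : Real.log Y ≤ 6 * Real.log ℓ)
    (hklog : (k : ℝ) * Real.log ℓ ≤ c * ℓ)
    (hcK : 24 * ((K : ℝ) + 1) * ((A : ℝ) + 1) * c = 1 / 4) (hkE : (E : ℝ) * k ≤ ℓ / 4) :
    (1 + (k : ℝ) * Pc) ^ (4 * k * (A + 1)) ≤ T * Real.exp (-((E : ℝ) * k)) / 2 := by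
  have hk0 : (0 : ℝ) ≤ k := by positivity
  have hY1 : (1 : ℝ) ≤ Y := by linarith
  have hYpos : (0 : ℝ) < Y := by linarith
  have h1 : 1 + (k : ℝ) * Pc ≤ (Y : ℝ) ^ (K + 1) := by
    have h2 : (Pc : ℝ) ≤ (Y : ℝ) ^ K := by exact_mod_cast hPcard
    have h3 : (1 : ℝ) ≤ (Y : ℝ) ^ K := one_le_pow₀ hY1
    calc 1 + (k : ℝ) * Pc ≤ (Y : ℝ) ^ K + k * (Y : ℝ) ^ K := by gcongr
      _ = (k + 1) * (Y : ℝ) ^ K := by ring
      _ ≤ Y * (Y : ℝ) ^ K := by gcongr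
      _ = (Y : ℝ) ^ (K + 1) := by ring
  have h2 : (1 + (k : ℝ) * Pc) ^ (4 * k * (A + 1)) ≤ Real.exp (ℓ / 4) := by
    calc (1 + (k : ℝ) * Pc) ^ (4 * k * (A + 1))
        ≤ ((Y : ℝ) ^ (K + 1)) ^ (4 * k * (A + 1)) := by gcongr
      _ = Real.exp (((K + 1) * (4 * k * (A + 1)) : ℕ) * Real.log Y) := by
          rw [← pow_mul, Real.exp_nat_mul, Real.exp_log hYpos]
      _ ≤ Real.exp (ℓ / 4) := by
          apply Real.exp_le_exp.2
          push_cast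
          calc ((K : ℝ) + 1) * (4 * k * (A + 1)) * Real.log Y
              ≤ ((K : ℝ) + 1) * (4 * k * (A + 1)) * (6 * Real.log ℓ) := by gcongr
            _ = 24 * ((K : ℝ) + 1) * (A + 1) * (k * Real.log ℓ) := by ring
            _ ≤ 24 * ((K : ℝ) + 1) * (A + 1) * (c * ℓ) := by gcongr
            _ = (24 * ((K : ℝ) + 1) * (A + 1) * c) * ℓ := by ring
            _ = ℓ / 4 := by
              rw [hcK]
              ring
  have h3 : Real.exp (3 * ℓ / 4) ≤ T * Real.exp (-((E : ℝ) * k)) := by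
    rw [hT, ← Real.exp_add]
    apply Real.exp_le_exp.2
    linarith
  have h5 : 2 * Real.exp (ℓ / 4) ≤ Real.exp (3 * ℓ / 4) := by
    have h6 : (3 * ℓ / 4 : ℝ) = ℓ / 4 + ℓ / 2 := by ring
    rw [h6, Real.exp_add]
    have h7 : (2 : ℝ) ≤ Real.exp (ℓ / 2) := by
      have := Real.add_one_le_exp (ℓ / 2)
      linarith
    have h8 : 0 < Real.exp (ℓ / 4) := Real.exp_pos _
    nlinarith
  linarith

/-- Choice of the sieving primes. -/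
lemma exists_sieving_primes (Y K n T A : ℕ) (hn : 0 < n) (hnT : n ≤ T ^ 4) (hT : 1 ≤ T)
    (hY : 1 ≤ Y) (hYT : 8 * Real.log T ≤ Y)
    (hrec : (A : ℝ) + 1 ≤ ∑ p ∈ primes14 Y (Y ^ K), (1 : ℝ) / p) :
    ∃ P : Finset ℕ, (∀ p ∈ P, (Y < p ∧ p ≤ Y ^ K) ∧ (p.Prime ∧ p % 4 = 1) ∧ ¬ p ∣ n) ∧
      (A : ℝ) ≤ ∑ p ∈ P, (1 : ℝ) / p ∧ ∑ p ∈ P, (1 : ℝ) / p ≤ A + 1 ∧ P.card ≤ Y ^ K := by
  have hbad := bad_sum_le Y (Y ^ K) n T hn hnT hT hY hYT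
  set P₀ := (primes14 Y (Y ^ K)).filter (fun p => ¬ p ∣ n) with hP₀
  have hsumP₀ : (A : ℝ) ≤ ∑ p ∈ P₀, (1 : ℝ) / p := by
    have h2 := Finset.sum_filter_add_sum_filter_not (primes14 Y (Y ^ K)) (fun p => p ∣ n)
      (fun p => (1 : ℝ) / p)
    rw [← h2] at hrec
    linarith
  obtain ⟨P, hPP₀, hPA, hPA'⟩ := exists_subset_sum P₀ (fun p => (1 : ℝ) / p)
    (fun p hp => by
      have hp1 : 1 ≤ p := by
        simp only [hP₀, primes14, mem_filter, mem_Ioc] at hp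
        exact hp.1.2.1.one_lt.le
      have : (1 : ℝ) ≤ p := by exact_mod_cast hp1
      exact ⟨by positivity, (div_le_one (by linarith)).2 this⟩) A hsumP₀ (by positivity)
  have hPmem : ∀ p ∈ P, (Y < p ∧ p ≤ Y ^ K) ∧ (p.Prime ∧ p % 4 = 1) ∧ ¬ p ∣ n := by
    intro p hp
    have := hPP₀ hp
    simp only [hP₀, primes14, mem_filter, mem_Ioc] at this
    exact ⟨this.1.1, this.1.2, this.2⟩
  refine ⟨P, hPmem, hPA, hPA', ?_⟩
  have h1 : P ⊆ Finset.Ioc 0 (Y ^ K) := by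
    intro p hp
    rw [Finset.mem_Ioc]
    have := hPmem p hp
    exact ⟨this.2.1.1.pos, this.1.2⟩
  calc P.card ≤ (Finset.Ioc 0 (Y ^ K)).card := Finset.card_le_card h1
    _ = Y ^ K := by simp

open scoped Classical in
/-- The count, once the sieving range `Y` is fixed. -/
lemma core_count' (D E K k Y T : ℕ) (ℓ c : ℝ) (hℓdef : ℓ = Real.log T) (hT3 : 3 ≤ T)
    (hℓ3 : 3 ≤ ℓ) (hk3 : 3 ≤ k)
    (hcK : 24 * ((K : ℝ) + 1) * (((E + 1 : ℕ) : ℝ) + 1) * c = 1 / 4)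
    (hkE : (E : ℝ) * k ≤ ℓ / 4)
    (hklog : (k : ℝ) * Real.log ℓ ≤ c * ℓ)
    (hlogY : Real.log Y ≤ 6 * Real.log ℓ) (hYK : ((Y ^ K : ℕ) : ℝ) ^ 2 ≤ T)
    (h8 : 8 * ℓ ≤ Y) (hkY : (k : ℝ) + 1 ≤ Y)
    (hrec : ((E + 1 : ℕ) : ℝ) + 1 ≤ ∑ p ∈ primes14 Y (Y ^ K), (1 : ℝ) / p)
    (hDY : 2 * ((k : ℤ) * D) ^ 2 < (Y : ℤ))
    (S : Finset GaussianInt) (hScard : S.card = k)
    (hSnorm : ∀ s ∈ S, ∀ s' ∈ S, (s - s').norm ≤ 2 * ((k : ℤ) * D) ^ 2)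
    (w : GaussianInt) (hw0 : w ≠ 0) (hwT : w.norm ≤ (T : ℤ) ^ 4) (c₀ : GaussianInt) :
    (((range T).filter (fun t : ℕ => ∀ s ∈ S, Prime (c₀ + s + t * w) ∧
        (T : ℤ) < (c₀ + s + t * w).norm)).card : ℝ) ≤ T * Real.exp (-((E : ℝ) * k)) := by
  have hTpos : (0 : ℝ) < T := by exact_mod_cast (by omega : 0 < T)
  have hnorm_pos : 0 < w.norm := GaussianInt.norm_pos.2 hw0
  set n : ℕ := w.norm.natAbs with hn
  have hnpos : 0 < n := by omega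
  have hnT : n ≤ T ^ 4 := by
    have h1 : (n : ℤ) = w.norm := by
      rw [hn]
      exact Int.natAbs_of_nonneg hnorm_pos.le
    have h2 : (n : ℤ) ≤ (T : ℤ) ^ 4 := by
      rw [h1]
      exact hwT
    exact_mod_cast h2
  have hY1 : 1 ≤ Y := by
    have : (1 : ℝ) ≤ Y := by
      have : (0 : ℝ) ≤ k := by positivity
      linarith
    exact_mod_cast this
  obtain ⟨P, hPmem, hPA, hPA', hPcard⟩ := exists_sieving_primes Y K n T (E + 1) hnpos hnT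
    (by omega) hY1 (by rw [← hℓdef]; exact h8) hrec
  have hcount := core_count P (fun p hp => (hPmem p hp).2.1) S
    (by
      intro p hp s hs s' hs'
      have h1 := hSnorm s hs s' hs'
      have h6 : (Y : ℤ) < p := by exact_mod_cast (hPmem p hp).1.1
      linarith)
    w
    (by
      intro p hp hdvd
      apply (hPmem p hp).2.2
      rw [hn]
      exact Int.natCast_dvd.1 hdvd)
    c₀ T (E + 1) hPA hPA'
  have hsub : (((range T).filter (fun t : ℕ => ∀ s ∈ S, Prime (c₀ + s + t * w) ∧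
        (T : ℤ) < (c₀ + s + t * w).norm)).card : ℝ)
      ≤ (((range T).filter (fun t : ℕ => ∀ s ∈ S, Prime (c₀ + s + t * w) ∧
        ∀ p ∈ P, (p : ℤ) ^ 2 < (c₀ + s + t * w).norm)).card : ℝ) := by
    have : (range T).filter (fun t : ℕ => ∀ s ∈ S, Prime (c₀ + s + t * w) ∧
        (T : ℤ) < (c₀ + s + t * w).norm)
      ⊆ (range T).filter (fun t : ℕ => ∀ s ∈ S, Prime (c₀ + s + t * w) ∧
        ∀ p ∈ P, (p : ℤ) ^ 2 < (c₀ + s + t * w).norm) := by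
      intro t ht
      rw [Finset.mem_filter] at ht ⊢
      refine ⟨ht.1, fun s hs => ⟨(ht.2 s hs).1, fun p hp => ?_⟩⟩
      have h1 := (ht.2 s hs).2
      have h2 : (p : ℤ) ^ 2 ≤ T := by
        have h3 : (p : ℝ) ^ 2 ≤ T := by
          refine le_trans ?_ hYK
          have : (p : ℝ) ≤ ((Y ^ K : ℕ) : ℝ) := by exact_mod_cast (hPmem p hp).1.2
          gcongr
        exact_mod_cast h3
      linarith
    exact_mod_cast Finset.card_le_card this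
  rw [hScard] at hcount
  have hk3' : (3 : ℝ) ≤ k := by exact_mod_cast hk3
  have hterm1 : 2 * T * Real.exp (-((k : ℝ) * (E + 1 : ℕ))) ≤ T * Real.exp (-((E : ℝ) * k)) / 2 := by
    have h1 : -((k : ℝ) * (E + 1 : ℕ)) = -((E : ℝ) * k) + -(k : ℝ) := by
      push_cast
      ring
    rw [h1, Real.exp_add]
    have h2 : Real.exp (-(k : ℝ)) ≤ 1 / 4 := by
      have h3 : Real.exp (-(k : ℝ)) ≤ Real.exp (-3) := Real.exp_le_exp.2 (by linarith)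
      have h4 : Real.exp (-3) ≤ 1 / 4 := by
        rw [Real.exp_neg]
        have h5 : (4 : ℝ) ≤ Real.exp 3 := by
          have := Real.add_one_le_exp (3 : ℝ)
          linarith
        rw [one_div]
        gcongr
      linarith
    have h6 : 0 < T * Real.exp (-((E : ℝ) * k)) := by positivity
    nlinarith
  have hterm2 := term2_le k P.card K (E + 1) E Y T ℓ c hℓ3
    (by rw [hℓdef]; exact (Real.exp_log hTpos).symm) hkY hPcard hlogY hklog hcK hkE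
  linarith

open scoped Classical in
/-- The estimate for given large `T`. -/
lemma core_step (D E K N₀ T : ℕ) (c ℓ : ℝ) (hK : 1 ≤ K) (hcpos : 0 < c) (hc1 : c ≤ 1)
    (hrec : ∀ Y : ℕ, N₀ ≤ Y → ((E + 1 : ℕ) : ℝ) + 1 ≤ ∑ p ∈ primes14 Y (Y ^ K), (1 : ℝ) / p)
    (hcK : 24 * ((K : ℝ) + 1) * (((E + 1 : ℕ) : ℝ) + 1) * c = 1 / 4) (hcE : (E : ℝ) * c ≤ 1 / 4)
    (hT3 : 3 ≤ T) (hℓdef : ℓ = Real.log T)
    (hlog1 : Real.log ℓ ≤ c / 3 * ℓ) (hlog2 : Real.log ℓ ≤ 1 / (12 * K) * ℓ)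
    (hℓ3 : 3 ≤ ℓ) (hℓN : (N₀ : ℝ) ≤ ℓ) (hℓD : 2 * (D : ℝ) ^ 2 < ℓ) :
    3 ≤ kk c T ∧ (E : ℝ) * kk c T ≤ Real.log T / 4 ∧
      ∀ S : Finset GaussianInt, S.card = kk c T →
      (∀ s ∈ S, ∀ s' ∈ S, (s - s').norm ≤ 2 * ((kk c T : ℤ) * D) ^ 2) →
      ∀ w : GaussianInt, w ≠ 0 → w.norm ≤ (T : ℤ) ^ 4 → ∀ c₀ : GaussianInt,
      (((range T).filter (fun t : ℕ => ∀ s ∈ S, Prime (c₀ + s + t * w) ∧
        (T : ℤ) < (c₀ + s + t * w).norm)).card : ℝ) ≤ T * Real.exp (-((E : ℝ) * kk c T)) := by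
  have hTpos : (0 : ℝ) < T := by exact_mod_cast (by omega : 0 < T)
  have hKge : (1 : ℝ) ≤ K := by exact_mod_cast hK
  have hℓpos : 0 < ℓ := by linarith
  have hloglog1 : 1 ≤ Real.log ℓ := by
    rw [Real.le_log_iff_exp_le hℓpos]
    have := Real.exp_one_lt_d9
    linarith
  have hllpos : 0 < Real.log ℓ := by linarith
  set k := kk c T with hk
  have hkle : (k : ℝ) ≤ c * ℓ / Real.log ℓ := by
    rw [hk, hℓdef]
    unfold kk
    apply Nat.floor_le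
    rw [← hℓdef]
    positivity
  have hklog : (k : ℝ) * Real.log ℓ ≤ c * ℓ := (le_div_iff₀ hllpos).1 hkle
  have hkℓ : (k : ℝ) ≤ c * ℓ := by
    calc (k : ℝ) = k * 1 := by ring
      _ ≤ k * Real.log ℓ := by gcongr
      _ ≤ c * ℓ := hklog
  have hkℓ' : (k : ℝ) ≤ ℓ := hkℓ.trans (by nlinarith)
  have hk3 : 3 ≤ k := by
    rw [hk]
    unfold kk
    apply Nat.le_floor
    rw [← hℓdef, le_div_iff₀ hllpos]
    push_cast
    linarith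
  have hkE : (E : ℝ) * k ≤ ℓ / 4 := by
    calc (E : ℝ) * k ≤ E * (c * ℓ) := by gcongr
      _ = (E * c) * ℓ := by ring
      _ ≤ (1 / 4) * ℓ := by gcongr
      _ = ℓ / 4 := by ring
  refine ⟨hk3, by rw [← hℓdef]; exact hkE, ?_⟩
  intro S hScard hSnorm w hw0 hwT c₀
  set m : ℕ := ⌈ℓ⌉₊ with hm
  have hmℓ : ℓ ≤ m := Nat.le_ceil ℓ
  have hmℓ' : (m : ℝ) < ℓ + 1 := Nat.ceil_lt_add_one hℓpos.le
  have hm3 : 3 ≤ m := by
    have : (3 : ℝ) ≤ m := hℓ3.trans hmℓ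
    exact_mod_cast this
  have hYℓ : ℓ ^ 3 ≤ ((m ^ 3 : ℕ) : ℝ) := by
    push_cast
    gcongr
  have hmY : m ≤ m ^ 3 := Nat.le_self_pow (by norm_num) m
  have hYN₀ : N₀ ≤ m ^ 3 := by
    have : (N₀ : ℝ) ≤ m := hℓN.trans hmℓ
    have h1 : N₀ ≤ m := by exact_mod_cast this
    exact h1.trans hmY
  have hlogm : Real.log m ≤ 2 * Real.log ℓ := by
    have h1 : (m : ℝ) ≤ ℓ ^ 2 := by nlinarith
    have h2 : (0 : ℝ) < m := by positivity
    have h3 := Real.log_le_log h2 h1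
    rw [Real.log_pow] at h3
    exact_mod_cast h3
  have hlogY : Real.log ((m ^ 3 : ℕ) : ℝ) ≤ 6 * Real.log ℓ := by
    push_cast
    rw [Real.log_pow]
    push_cast
    linarith
  have hYK : (((m ^ 3) ^ K : ℕ) : ℝ) ^ 2 ≤ T := by
    have h1 : Real.log ((((m ^ 3) ^ K : ℕ) : ℝ) ^ 2) ≤ Real.log T := by
      rw [Real.log_pow, Nat.cast_pow (m ^ 3) K, Real.log_pow, ← hℓdef]
      calc ((2 : ℕ) : ℝ) * ((K : ℝ) * Real.log ((m ^ 3 : ℕ) : ℝ))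
          ≤ ((2 : ℕ) : ℝ) * (K * (6 * Real.log ℓ)) := by gcongr
        _ = 12 * K * Real.log ℓ := by
          push_cast
          ring
        _ ≤ 12 * K * (1 / (12 * K) * ℓ) := by gcongr
        _ = ℓ := by field_simp
    exact (Real.log_le_log_iff (by positivity) hTpos).1 h1
  have h9 : 9 * ℓ ≤ ((m ^ 3 : ℕ) : ℝ) := by
    have h1 : 9 ≤ ℓ ^ 2 := by nlinarith
    calc 9 * ℓ ≤ ℓ ^ 2 * ℓ := by gcongr
      _ = ℓ ^ 3 := by ring
      _ ≤ _ := hYℓ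
  have hDY : 2 * ((k : ℤ) * D) ^ 2 < ((m ^ 3 : ℕ) : ℤ) := by
    have h2 : (2 * ((k : ℝ) * D) ^ 2) < ((m ^ 3 : ℕ) : ℝ) := by
      have h3 : (k : ℝ) ^ 2 ≤ ℓ ^ 2 := by gcongr
      have h4 : 0 < ℓ ^ 2 := by positivity
      calc (2 * ((k : ℝ) * D) ^ 2) = (2 * (D : ℝ) ^ 2) * (k : ℝ) ^ 2 := by ring
        _ ≤ (2 * (D : ℝ) ^ 2) * ℓ ^ 2 := by gcongr
        _ < ℓ * ℓ ^ 2 := by gcongr
        _ = ℓ ^ 3 := by ring
        _ ≤ _ := hYℓ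
    exact_mod_cast h2
  exact core_count' D E K k (m ^ 3) T ℓ c hℓdef hT3 hℓ3 hk3 hcK hkE hklog hlogY hYK
    (by linarith) (by linarith) (hrec _ hYN₀) hDY S hScard hSnorm w hw0 hwT c₀

open scoped Classical in
/-- **Core estimate.** -/
theorem core_asymptotic (D E : ℕ) :
    ∃ c : ℝ, 0 < c ∧ c ≤ 1 ∧ ∃ T₀ : ℕ, 3 ≤ T₀ ∧ ∀ T : ℕ, T₀ ≤ T →
      3 ≤ kk c T ∧ (E : ℝ) * kk c T ≤ Real.log T / 4 ∧
      ∀ S : Finset GaussianInt, S.card = kk c T →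
      (∀ s ∈ S, ∀ s' ∈ S, (s - s').norm ≤ 2 * ((kk c T : ℤ) * D) ^ 2) →
      ∀ w : GaussianInt, w ≠ 0 → w.norm ≤ (T : ℤ) ^ 4 → ∀ c₀ : GaussianInt,
      (((range T).filter (fun t : ℕ => ∀ s ∈ S, Prime (c₀ + s + t * w) ∧
        (T : ℤ) < (c₀ + s + t * w).norm)).card : ℝ) ≤ T * Real.exp (-((E : ℝ) * kk c T)) := by
  obtain ⟨K, N₀, hK, hN₀, hrec⟩ := exists_recip_sum_ge (((E + 1 : ℕ) : ℝ) + 1)
  set c : ℝ := 1 / (96 * ((K : ℝ) + 1) * (((E + 1 : ℕ) : ℝ) + 1)) with hc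
  have hcpos : 0 < c := by positivity
  have hE0 : (0 : ℝ) ≤ E := by positivity
  have hKge : (1 : ℝ) ≤ K := by exact_mod_cast hK
  have hcK : 24 * ((K : ℝ) + 1) * (((E + 1 : ℕ) : ℝ) + 1) * c = 1 / 4 := by
    rw [hc]
    field_simp
    norm_num
  have hcE : (E : ℝ) * c ≤ 1 / 4 := by
    have h1 : (E : ℝ) ≤ 24 * ((K : ℝ) + 1) * (((E + 1 : ℕ) : ℝ) + 1) := by
      push_cast
      nlinarith
    calc (E : ℝ) * c ≤ (24 * ((K : ℝ) + 1) * (((E + 1 : ℕ) : ℝ) + 1)) * c := by gcongr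
      _ = 1 / 4 := hcK
  have hc1 : c ≤ 1 := by
    have h1 : (1 : ℝ) ≤ 24 * ((K : ℝ) + 1) * (((E + 1 : ℕ) : ℝ) + 1) := by
      push_cast
      nlinarith
    calc c = 1 * c := by ring
      _ ≤ (24 * ((K : ℝ) + 1) * (((E + 1 : ℕ) : ℝ) + 1)) * c := by gcongr
      _ ≤ 1 := by rw [hcK]; norm_num
  obtain ⟨ℓ₀, hℓ₀⟩ : ∃ ℓ₀ : ℝ, ∀ ℓ : ℝ, ℓ₀ ≤ ℓ →
      Real.log ℓ ≤ min (c / 3) (1 / (12 * K)) * ℓ ∧ 3 ≤ ℓ ∧ (N₀ : ℝ) ≤ ℓ ∧ 2 * (D : ℝ) ^ 2 < ℓ := by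
    have hδ : 0 < min (c / 3) (1 / (12 * (K : ℝ))) := by positivity
    have h1 : ∀ᶠ ℓ : ℝ in Filter.atTop, Real.log ℓ ≤ min (c / 3) (1 / (12 * K)) * ℓ := by
      have := (Real.isLittleO_log_id_atTop.bound hδ)
      filter_upwards [this, Filter.eventually_ge_atTop (0 : ℝ)] with ℓ h hℓ
      have h2 : ‖id ℓ‖ = ℓ := by
        rw [id, Real.norm_eq_abs, abs_of_nonneg hℓ]
      rw [h2] at h
      exact (le_abs_self _).trans h
    have h2 := ((h1.and (Filter.eventually_ge_atTop (3 : ℝ))).and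
      (Filter.eventually_ge_atTop (N₀ : ℝ))).and (Filter.eventually_gt_atTop (2 * (D : ℝ) ^ 2))
    obtain ⟨ℓ₀, h3⟩ := Filter.eventually_atTop.1 h2
    exact ⟨ℓ₀, fun ℓ hℓ => ⟨(h3 ℓ hℓ).1.1.1, (h3 ℓ hℓ).1.1.2, (h3 ℓ hℓ).1.2, (h3 ℓ hℓ).2⟩⟩
  refine ⟨c, hcpos, hc1, max 3 ⌈Real.exp ℓ₀⌉₊, le_max_left _ _, ?_⟩
  intro T hT
  have hT3 : 3 ≤ T := (le_max_left _ _).trans hT
  have hTe : Real.exp ℓ₀ ≤ T := (Nat.le_ceil _).trans (by exact_mod_cast (le_max_right _ _).trans hT)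
  have hTpos : (0 : ℝ) < T := by exact_mod_cast (by omega : 0 < T)
  have hℓ : ℓ₀ ≤ Real.log T := (Real.le_log_iff_exp_le hTpos).2 hTe
  obtain ⟨hlog, hℓ3, hℓN, hℓD⟩ := hℓ₀ (Real.log T) hℓ
  have hℓpos : 0 < Real.log T := by linarith
  exact core_step D E K N₀ T c (Real.log T) hK hcpos hc1 hrec hcK hcE hT3 rfl
    (hlog.trans (by
      gcongr
      exact min_le_left _ _))
    (hlog.trans (by
      gcongr
      exact min_le_right _ _)) hℓ3 hℓN hℓD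

end Vale.Agent.P015h2
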