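import Mathlib
import Vale.Agent.P015_h2.Core

/-!
# Chains of Gaussian integers with bounded steps
-/

namespace Vale.Agent.P015h2

open Finset

/-- Gaussian integers with both coordinates at most `D` in absolute value. -/
noncomputable def box (D : ℕ) : Finset GaussianInt :=
  ((Icc (-(D : ℤ)) D) ×ˢ (Icc (-(D : ℤ)) D)).image (fun q => (⟨q.1, q.2⟩ : GaussianInt))

lemma mem_box {D : ℕ} {z : GaussianInt} : z ∈ box D ↔ |z.re| ≤ D ∧ |z.im| ≤ D := by
  unfold box
  rw [mem_image]
  constructor
  · rintro ⟨⟨a, b⟩, h, rfl⟩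
    simp only [mem_product, mem_Icc] at h
    exact ⟨abs_le.2 h.1, abs_le.2 h.2⟩
  · rintro ⟨h1, h2⟩
    refine ⟨(z.re, z.im), ?_, rfl⟩
    simp only [mem_product, mem_Icc]
    exact ⟨abs_le.1 h1, abs_le.1 h2⟩

lemma card_box_le (D : ℕ) : (box D).card ≤ (2 * D + 1) ^ 2 := by
  unfold box
  refine card_image_le.trans ?_
  rw [card_product, Int.card_Icc]
  have : ((D : ℤ) + 1 - -(D : ℤ)).toNat = 2 * D + 1 := by omega
  rw [this]
  exact (sq _).symm.le

/-- The vertex sets of the chains of `n` Gaussian integers starting at `z` with steps in the box. -/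
noncomputable def chains (D : ℕ) : ℕ → GaussianInt → Finset (Finset GaussianInt)
  | 0, _ => {∅}
  | n + 1, z => (box D).biUnion (fun u => (chains D n (z + u)).image (fun S => insert z S))

lemma card_chains_le (D n : ℕ) (z : GaussianInt) :
    (chains D n z).card ≤ ((2 * D + 1) ^ 2) ^ n := by
  induction n generalizing z with
  | zero => simp [chains]
  | succ n ih =>
    unfold chains
    calc ((box D).biUnion (fun u => (chains D n (z + u)).image (fun S => insert z S))).card
        ≤ ∑ u ∈ box D, ((chains D n (z + u)).image (fun S => insert z S)).card := card_biUnion_le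
      _ ≤ ∑ _u ∈ box D, ((2 * D + 1) ^ 2) ^ n :=
          sum_le_sum (fun u _ => card_image_le.trans (ih _))
      _ = (box D).card * ((2 * D + 1) ^ 2) ^ n := by rw [sum_const, smul_eq_mul]
      _ ≤ (2 * D + 1) ^ 2 * ((2 * D + 1) ^ 2) ^ n := Nat.mul_le_mul_right _ (card_box_le D)
      _ = ((2 * D + 1) ^ 2) ^ (n + 1) := by ring

lemma mem_chains (D n : ℕ) (f : ℕ → GaussianInt) (hf : ∀ i, i < n → f (i + 1) - f i ∈ box D) :
    (range n).image f ∈ chains D n (f 0) := by
  induction n generalizing f with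
  | zero => simp [chains]
  | succ n ih =>
    unfold chains
    rw [mem_biUnion]
    refine ⟨f 1 - f 0, hf 0 (by omega), ?_⟩
    rw [mem_image]
    refine ⟨(range n).image (fun i => f (i + 1)), ?_, ?_⟩
    · have := ih (fun i => f (i + 1)) (fun i hi => hf (i + 1) (by omega))
      have e : f 0 + (f 1 - f 0) = f 1 := by ring
      rw [e]
      exact this
    · ext z
      simp only [mem_insert, mem_image, mem_range]
      constructor
      · rintro (rfl | ⟨i, hi, rfl⟩)
        · exact ⟨0, by omega, rfl⟩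
        · exact ⟨i + 1, by omega, rfl⟩
      · rintro ⟨i, hi, rfl⟩
        rcases i with _ | i
        · exact Or.inl rfl
        · exact Or.inr ⟨i, by omega, rfl⟩

lemma chain_diff (D n : ℕ) (f : ℕ → GaussianInt) (hf : ∀ i, i < n → f (i + 1) - f i ∈ box D)
    (i m : ℕ) (h : i + m ≤ n) : f (i + m) - f i ∈ box (m * D) := by
  induction m with
  | zero =>
    rw [mem_box]
    simp
  | succ m ih =>
    have h1 := ih (by omega)
    have h2 := hf (i + m) (by omega)
    rw [mem_box] at *
    have e : f (i + (m + 1)) - f i = (f (i + m + 1) - f (i + m)) + (f (i + m) - f i) := by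
      rw [← add_assoc]
      ring
    rw [e]
    push_cast at *
    constructor
    · calc |((f (i + m + 1) - f (i + m)) + (f (i + m) - f i)).re|
          = |(f (i + m + 1) - f (i + m)).re + (f (i + m) - f i).re| := by
            rw [Zsqrtd.re_add]
        _ ≤ |(f (i + m + 1) - f (i + m)).re| + |(f (i + m) - f i).re| := abs_add_le _ _
        _ ≤ D + m * D := add_le_add h2.1 h1.1
        _ = (m + 1) * D := by ring
    · calc |((f (i + m + 1) - f (i + m)) + (f (i + m) - f i)).im|
          = |(f (i + m + 1) - f (i + m)).im + (f (i + m) - f i).im| := by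
            rw [Zsqrtd.im_add]
        _ ≤ |(f (i + m + 1) - f (i + m)).im| + |(f (i + m) - f i).im| := abs_add_le _ _
        _ ≤ D + m * D := add_le_add h2.2 h1.2
        _ = (m + 1) * D := by ring

lemma norm_le_of_mem_box {D : ℕ} {z : GaussianInt} (h : z ∈ box D) :
    z.norm ≤ 2 * (D : ℤ) ^ 2 := by
  rw [mem_box] at h
  have h1 : z.re ^ 2 ≤ (D : ℤ) ^ 2 := sq_le_sq' (by linarith [(abs_le.1 h.1).1]) (abs_le.1 h.1).2
  have h2 : z.im ^ 2 ≤ (D : ℤ) ^ 2 := sq_le_sq' (by linarith [(abs_le.1 h.2).1]) (abs_le.1 h.2).2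
  rw [Zsqrtd.norm_def]
  nlinarith

lemma neg_mem_box {D : ℕ} {z : GaussianInt} (h : z ∈ box D) : -z ∈ box D := by
  rw [mem_box] at *
  rw [Zsqrtd.re_neg, Zsqrtd.im_neg, abs_neg, abs_neg]
  exact h

lemma box_mono {D D' : ℕ} (h : D ≤ D') {z : GaussianInt} (hz : z ∈ box D) : z ∈ box D' := by
  rw [mem_box] at *
  have : (D : ℤ) ≤ D' := by exact_mod_cast h
  exact ⟨hz.1.trans this, hz.2.trans this⟩

/-- The vertex set of a chain has small diameter. -/
lemma chain_norm_le (D k : ℕ) (f : ℕ → GaussianInt) (hf : ∀ i, i < k → f (i + 1) - f i ∈ box D)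
    (s : GaussianInt) (hs : s ∈ (range k).image f) (s' : GaussianInt)
    (hs' : s' ∈ (range k).image f) : (s - s').norm ≤ 2 * ((k : ℤ) * D) ^ 2 := by
  rw [mem_image] at hs hs'
  obtain ⟨i, hi, rfl⟩ := hs
  obtain ⟨j, hj, rfl⟩ := hs'
  rw [mem_range] at hi hj
  have key : ∀ i j, i < k → j < k → i ≤ j → f j - f i ∈ box (k * D) := by
    intro i j hi hj hij
    obtain ⟨m, rfl⟩ := Nat.exists_eq_add_of_le hij
    exact box_mono (Nat.mul_le_mul_right D (by omega : m ≤ k)) (chain_diff D k f hf i m (by omega))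
  have h1 : f i - f j ∈ box (k * D) := by
    rcases le_total i j with h | h
    · have := neg_mem_box (key i j hi hj h)
      rwa [neg_sub] at this
    · exact key j i hj hi h
  have := norm_le_of_mem_box h1
  push_cast at this
  exact this

lemma mem_box_of_norm_le {D : ℕ} {z : GaussianInt} (h : ‖(z : ℂ)‖ ≤ D) : z ∈ box D := by
  rw [mem_box]
  constructor
  · have h1 : |(z : ℂ).re| ≤ D := (Complex.abs_re_le_norm _).trans h
    rw [← GaussianInt.intCast_re] at h1
    exact_mod_cast h1
  · have h1 : |(z : ℂ).im| ≤ D := (Complex.abs_im_le_norm _).trans h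
    rw [← GaussianInt.intCast_im] at h1
    exact_mod_cast h1

lemma norm_sq_toComplex (z : GaussianInt) : ‖(z : ℂ)‖ ^ 2 = (z.norm : ℝ) := by
  rw [GaussianInt.intCast_real_norm, Complex.normSq_eq_norm_sq]

end Vale.Agent.P015h2
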