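import Mathlib
import Vale.Agent.P015_h2.Chains

/-!
# Paths of Gaussian primes cannot follow a straight line
-/

namespace Vale.Agent.P015h2

open Finset

/-- Dirichlet approximation of a direction by a Gaussian integer. -/
lemma exists_direction (v : ℂ) (hv : ‖v‖ = 1) (T : ℕ) (hT : 1 ≤ T) :
    ∃ ω : GaussianInt, ∃ τ : ℝ, ω ≠ 0 ∧ 0 < τ ∧ ‖(ω : ℂ) - τ * v‖ ≤ 1 / T ∧
      ω.norm ≤ 2 * (T : ℤ) ^ 2 := by
  have hTpos : (0 : ℝ) < T := by exact_mod_cast hT
  have hnorm : v.re ^ 2 + v.im ^ 2 = 1 := by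
    have := Complex.sq_norm v
    rw [hv, Complex.normSq_apply] at this
    nlinarith
  -- it is enough to find a nonzero `τ`
  suffices H : ∃ ω : GaussianInt, ∃ τ : ℝ, ω ≠ 0 ∧ τ ≠ 0 ∧ ‖(ω : ℂ) - τ * v‖ ≤ 1 / T ∧
      ω.norm ≤ 2 * (T : ℤ) ^ 2 by
    obtain ⟨ω, τ, h1, h2, h3, h4⟩ := H
    rcases lt_or_gt_of_ne h2 with h | h
    · refine ⟨-ω, -τ, neg_ne_zero.2 h1, by linarith, ?_, by rw [Zsqrtd.norm_neg]; exact h4⟩
      have : ((-ω : GaussianInt) : ℂ) - ((-τ : ℝ) : ℂ) * v = -((ω : ℂ) - τ * v) := by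
        rw [GaussianInt.toComplex_neg]
        push_cast
        ring
      rw [this, norm_neg]
      exact h3
    · exact ⟨ω, τ, h1, h, h3, h4⟩
  have habs : ∀ (ξ : ℝ), |ξ| ≤ 1 → ∀ j k : ℤ, 0 < k → k ≤ T → |(k : ℝ) * ξ - j| ≤ 1 / (T + 1) →
      k ^ 2 + j ^ 2 ≤ 2 * (T : ℤ) ^ 2 := by
    intro ξ hξ j k hk hkT hjk
    have h1 : |(j : ℝ)| < T + 1 := by
      have h2 : |(j : ℝ)| ≤ |(k : ℝ) * ξ - j| + |(k : ℝ) * ξ| := by
        have := abs_sub ((k : ℝ) * ξ) ((k : ℝ) * ξ - j)
        rw [sub_sub_cancel] at this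
        linarith
      have h3 : |(k : ℝ) * ξ| ≤ T := by
        rw [abs_mul]
        have hk' : |(k : ℝ)| ≤ T := by
          rw [abs_of_pos (by exact_mod_cast hk)]
          exact_mod_cast hkT
        calc |(k : ℝ)| * |ξ| ≤ T * 1 := mul_le_mul hk' hξ (abs_nonneg _) hTpos.le
          _ = T := mul_one _
      have h4 : (1 : ℝ) / (T + 1) < 1 := by
        rw [div_lt_one (by positivity)]
        linarith
      linarith
    have h5 : |j| < (T : ℤ) + 1 := by exact_mod_cast h1
    have h6 : |j| ≤ (T : ℤ) := by omega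
    have h7 : j ^ 2 ≤ (T : ℤ) ^ 2 := sq_le_sq' (by linarith [(abs_le.1 h6).1]) (abs_le.1 h6).2
    have h8 : k ^ 2 ≤ (T : ℤ) ^ 2 := by nlinarith
    linarith
  have hinv : (1 : ℝ) / (T + 1) ≤ 1 / T := by
    gcongr
    linarith
  by_cases hcase : |v.im| ≤ |v.re|
  · have hre : v.re ≠ 0 := by
      intro h
      rw [h, abs_zero] at hcase
      have : v.im = 0 := abs_eq_zero.1 (le_antisymm hcase (abs_nonneg _))
      rw [h, this] at hnorm
      norm_num at hnorm
    set ξ := v.im / v.re with hξ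
    have hξ1 : |ξ| ≤ 1 := by
      rw [hξ, abs_div]
      exact (div_le_one (abs_pos.2 hre)).2 hcase
    obtain ⟨j, k, hk, hkT, hjk⟩ := Real.exists_int_int_abs_mul_sub_le ξ (by omega : 0 < T)
    refine ⟨⟨k, j⟩, (k : ℝ) / v.re, ?_, ?_, ?_, ?_⟩
    · intro h
      have := congrArg Zsqrtd.re h
      simp at this
      omega
    · have : (k : ℝ) ≠ 0 := by exact_mod_cast hk.ne'
      exact div_ne_zero this hre
    · have e : ((⟨k, j⟩ : GaussianInt) : ℂ) - (((k : ℝ) / v.re : ℝ) : ℂ) * v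
          = ((((j : ℝ) - k * ξ : ℝ)) : ℂ) * Complex.I := by
        apply Complex.ext
        · simp
          field_simp
          ring
        · simp
          rw [hξ]
          field_simp
      rw [e, norm_mul, Complex.norm_I, mul_one, Complex.norm_real, Real.norm_eq_abs, abs_sub_comm]
      exact hjk.trans hinv
    · have := habs ξ hξ1 j k hk hkT hjk
      rw [Zsqrtd.norm_def]
      simp only
      linarith
  · push Not at hcase
    have him : v.im ≠ 0 := by
      intro h
      rw [h, abs_zero] at hcase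
      exact absurd hcase (not_lt.2 (abs_nonneg _))
    set ξ := v.re / v.im with hξ
    have hξ1 : |ξ| ≤ 1 := by
      rw [hξ, abs_div]
      exact (div_le_one (abs_pos.2 him)).2 hcase.le
    obtain ⟨j, k, hk, hkT, hjk⟩ := Real.exists_int_int_abs_mul_sub_le ξ (by omega : 0 < T)
    refine ⟨⟨j, k⟩, (k : ℝ) / v.im, ?_, ?_, ?_, ?_⟩
    · intro h
      have := congrArg Zsqrtd.im h
      simp at this
      omega
    · have : (k : ℝ) ≠ 0 := by exact_mod_cast hk.ne'
      exact div_ne_zero this him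
    · have e : ((⟨j, k⟩ : GaussianInt) : ℂ) - (((k : ℝ) / v.im : ℝ) : ℂ) * v
          = ((((j : ℝ) - k * ξ : ℝ)) : ℂ) := by
        apply Complex.ext
        · simp
          rw [hξ]
          field_simp
        · simp
          field_simp
          ring
      rw [e, Complex.norm_real, Real.norm_eq_abs, abs_sub_comm]
      exact hjk.trans hinv
    · have := habs ξ hξ1 j k hk hkT hjk
      rw [Zsqrtd.norm_def]
      simp only
      linarith

/-- Coordinate along the line `a + ℝ v`. -/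
noncomputable def coord (a v u : ℂ) : ℝ := ((u - a) * (starRingEnd ℂ) v).re

lemma coord_sub_le (a v u u' : ℂ) (hv : ‖v‖ = 1) : |coord a v u - coord a v u'| ≤ ‖u - u'‖ := by
  have e : coord a v u - coord a v u' = ((u - u') * (starRingEnd ℂ) v).re := by
    unfold coord
    rw [← Complex.sub_re]
    congr 1
    ring
  rw [e]
  calc _ ≤ ‖(u - u') * (starRingEnd ℂ) v‖ := Complex.abs_re_le_norm _
    _ = ‖u - u'‖ := by rw [norm_mul, RCLike.norm_conj, hv, mul_one]

lemma coord_point (a v : ℂ) (hv : ‖v‖ = 1) (s : ℝ) : coord a v (a + s * v) = s := by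
  unfold coord
  have h1 : v * (starRingEnd ℂ) v = 1 := by
    rw [Complex.mul_conj, Complex.normSq_eq_norm_sq, hv]
    norm_num
  have : (a + s * v - a) * (starRingEnd ℂ) v = s * (v * (starRingEnd ℂ) v) := by ring
  rw [this, h1, mul_one, Complex.ofReal_re]

lemma coord_dist (a v u : ℂ) (hv : ‖v‖ = 1) (s h : ℝ) (hs : ‖u - (a + s * v)‖ ≤ h) :
    ‖u - (a + (coord a v u : ℝ) * v)‖ ≤ 2 * h := by
  have h1 := coord_sub_le a v u (a + s * v) hv
  rw [coord_point a v hv] at h1
  have h2 : ‖(a + s * v) - (a + (coord a v u : ℝ) * v)‖ = |coord a v u - s| := by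
    have : (a + s * v) - (a + (coord a v u : ℝ) * v) = ((s - coord a v u : ℝ) : ℂ) * v := by
      push_cast
      ring
    rw [this, norm_mul, hv, mul_one, Complex.norm_real, Real.norm_eq_abs, abs_sub_comm]
  calc ‖u - (a + (coord a v u : ℝ) * v)‖
      = ‖(u - (a + s * v)) + ((a + s * v) - (a + (coord a v u : ℝ) * v))‖ := by
        congr 1
        ring
    _ ≤ ‖u - (a + s * v)‖ + ‖(a + s * v) - (a + (coord a v u : ℝ) * v)‖ := norm_add_le _ _
    _ ≤ 2 * h := by
        rw [h2]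
        linarith

lemma seq_dist {D : ℝ} (_hD : 0 ≤ D) (f : ℕ → GaussianInt) (n : ℕ)
    (hf : ∀ i, i < n → ‖(f (i + 1) : ℂ) - f i‖ ≤ D) (i m : ℕ) (h : i + m ≤ n) :
    ‖(f (i + m) : ℂ) - f i‖ ≤ m * D := by
  induction m with
  | zero => simp
  | succ m ih =>
    have h1 := ih (by omega)
    have h2 := hf (i + m) (by omega)
    calc ‖(f (i + (m + 1)) : ℂ) - f i‖
        = ‖((f (i + m + 1) : ℂ) - f (i + m)) + ((f (i + m) : ℂ) - f i)‖ := by
          rw [← add_assoc]
          congr 1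
          ring
      _ ≤ ‖(f (i + m + 1) : ℂ) - f (i + m)‖ + ‖(f (i + m) : ℂ) - f i‖ := norm_add_le _ _
      _ ≤ D + m * D := add_le_add h2 h1
      _ = ((m + 1 : ℕ) : ℝ) * D := by
          push_cast
          ring

open scoped Classical in
/-- The counting step for a path inside a tube. -/
lemma tube_count (D E T k H n : ℕ) (h τ : ℝ) (a v : ℂ) (hv : ‖v‖ = 1) (ω : GaussianInt)
    (f : ℕ → GaussianInt) (hT : 1 ≤ T)
    (hcore : ∀ S : Finset GaussianInt, S.card = k →
      (∀ s ∈ S, ∀ s' ∈ S, (s - s').norm ≤ 2 * ((k : ℤ) * D) ^ 2) →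
      (((range T).filter (fun t : ℕ => ∀ s ∈ S, Prime (f 0 + s + t * ω) ∧
        (T : ℤ) < (f 0 + s + t * ω).norm)).card : ℝ) ≤ T * Real.exp (-((E : ℝ) * k)))
    (hprime : ∀ i, i ≤ n → Prime (f i)) (hinj : ∀ i, i ≤ n → ∀ j, j ≤ n → f i = f j → i = j)
    (hstep : ∀ i, i < n → ‖(f (i + 1) : ℂ) - f i‖ ≤ D)
    (hnorm : ∀ i, i ≤ n → (T : ℤ) < (f i).norm)
    (hline : ∀ i, i ≤ n → ‖(f i : ℂ) - (a + (coord a v (f i) : ℝ) * v)‖ ≤ 2 * h)
    (hσ : coord a v (f 0) + T * τ + (k + 1) * D < coord a v (f n))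
    (hω : ‖(ω : ℂ) - τ * v‖ ≤ 1 / T) (hτ : 0 < τ) (hH : 4 * h + D + 1 ≤ H) :
    (T : ℝ) ≤ ((2 * (H : ℝ) + 1) ^ 2 * ((2 * (D : ℝ) + 1) ^ 2) ^ k) * (T * Real.exp (-((E : ℝ) * k))) := by
  have hTpos : (0 : ℝ) < T := by exact_mod_cast hT
  have hD0 : (0 : ℝ) ≤ D := by positivity
  let good : GaussianInt → Finset (Finset GaussianInt) := fun u =>
    (chains D k u).filter (fun S => S.card = k ∧
      ∀ s ∈ S, ∀ s' ∈ S, (s - s').norm ≤ 2 * ((k : ℤ) * D) ^ 2)
  let A : Finset GaussianInt → Finset ℕ := fun S =>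
    (range T).filter (fun t : ℕ => ∀ s ∈ S, Prime (f 0 + s + t * ω) ∧
        (T : ℤ) < (f 0 + s + t * ω).norm)
  have hcover : range T ⊆ (box H).biUnion (fun u => (good u).biUnion A) := by
    intro t ht
    rw [mem_range] at ht
    have htT : (t : ℝ) ≤ T := by exact_mod_cast ht.le
    set σ₀ := coord a v (f 0) with hσ₀
    set j := Nat.findGreatest (fun j => coord a v (f j) ≤ σ₀ + t * τ) n with hj
    have hj1 : coord a v (f j) ≤ σ₀ + t * τ :=
      Nat.findGreatest_spec (P := fun j => coord a v (f j) ≤ σ₀ + t * τ) (Nat.zero_le n)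
        (by show coord a v (f 0) ≤ σ₀ + t * τ
            have : 0 ≤ (t : ℝ) * τ := by positivity
            linarith)
    have hjn : j ≤ n := Nat.findGreatest_le n
    have hj2 : ∀ i, j < i → i ≤ n → σ₀ + t * τ < coord a v (f i) := by
      intro i hi hin
      have := Nat.findGreatest_is_greatest (P := fun j => coord a v (f j) ≤ σ₀ + t * τ) hi hin
      push Not at this
      exact this
    have hjk : j + k + 1 ≤ n := by
      by_contra hcon
      have h1 : n - j ≤ k := by omega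
      have h2 := seq_dist hD0 f n hstep j (n - j) (by omega)
      rw [Nat.add_sub_cancel' hjn] at h2
      have h3 := coord_sub_le a v (f n) (f j) hv
      have h4 : coord a v (f n) ≤ coord a v (f j) + k * D := by
        have h5 := (abs_le.1 h3).2
        have h6 : ((n - j : ℕ) : ℝ) * D ≤ k * D := by
          gcongr
        linarith
      have h7 : (t : ℝ) * τ ≤ T * τ := by gcongr
      nlinarith
    set g : ℕ → GaussianInt := fun i => f (j + 1 + i) - (f 0 + t * ω) with hg
    have hgstep : ∀ i, i < k → g (i + 1) - g i ∈ box D := by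
      intro i hi
      apply mem_box_of_norm_le
      have e : g (i + 1) - g i = f (j + 1 + i + 1) - f (j + 1 + i) := by
        rw [hg]
        simp only
        rw [← add_assoc]
        ring
      rw [e, GaussianInt.toComplex_sub]
      exact hstep (j + 1 + i) (by omega)
    have hg0 : g 0 ∈ box H := by
      apply mem_box_of_norm_le
      refine le_trans ?_ hH
      have e : ((g 0 : GaussianInt) : ℂ) = ((f (j + 1) : ℂ) - (a + (coord a v (f (j + 1)) : ℝ) * v))
          + ((coord a v (f (j + 1)) - (σ₀ + t * τ) : ℝ) : ℂ) * v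
          - ((f 0 : ℂ) - (a + (σ₀ : ℝ) * v)) - t * ((ω : ℂ) - τ * v) := by
        rw [hg]
        simp only [add_zero]
        rw [GaussianInt.toComplex_sub, GaussianInt.toComplex_add, GaussianInt.toComplex_mul,
          map_natCast]
        push_cast
        ring
      have h1 := hline (j + 1) (by omega)
      have h2 := hline 0 (Nat.zero_le n)
      have h3 : ‖((coord a v (f (j + 1)) - (σ₀ + t * τ) : ℝ) : ℂ) * v‖ ≤ D := by
        rw [norm_mul, hv, mul_one, Complex.norm_real, Real.norm_eq_abs, abs_le]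
        have h4 := hj2 (j + 1) (by omega) (by omega)
        have h5 := coord_sub_le a v (f (j + 1)) (f j) hv
        have h6 := (abs_le.1 h5).2
        have h7 := hstep j (by omega)
        constructor <;> linarith
      have h4 : ‖(t : ℂ) * ((ω : ℂ) - τ * v)‖ ≤ 1 := by
        rw [norm_mul, Complex.norm_natCast]
        calc (t : ℝ) * ‖(ω : ℂ) - τ * v‖ ≤ T * (1 / T) := by gcongr
          _ = 1 := by field_simp
      rw [e]
      calc _ ≤ ‖((f (j + 1) : ℂ) - (a + (coord a v (f (j + 1)) : ℝ) * v))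
          + ((coord a v (f (j + 1)) - (σ₀ + t * τ) : ℝ) : ℂ) * v
          - ((f 0 : ℂ) - (a + (σ₀ : ℝ) * v))‖ + ‖(t : ℂ) * ((ω : ℂ) - τ * v)‖ := norm_sub_le _ _
        _ ≤ (‖((f (j + 1) : ℂ) - (a + (coord a v (f (j + 1)) : ℝ) * v))
          + ((coord a v (f (j + 1)) - (σ₀ + t * τ) : ℝ) : ℂ) * v‖
          + ‖((f 0 : ℂ) - (a + (σ₀ : ℝ) * v))‖) + ‖(t : ℂ) * ((ω : ℂ) - τ * v)‖ := by
            gcongr
            exact norm_sub_le _ _
        _ ≤ ((‖((f (j + 1) : ℂ) - (a + (coord a v (f (j + 1)) : ℝ) * v))‖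
          + ‖((coord a v (f (j + 1)) - (σ₀ + t * τ) : ℝ) : ℂ) * v‖)
          + ‖((f 0 : ℂ) - (a + (σ₀ : ℝ) * v))‖) + ‖(t : ℂ) * ((ω : ℂ) - τ * v)‖ := by
            gcongr
            exact norm_add_le _ _
        _ ≤ ((2 * h + D) + 2 * h) + 1 := by
            gcongr
        _ = 4 * h + D + 1 := by ring
    have hginj : Set.InjOn g (range k) := by
      intro i hi i' hi' hii
      rw [coe_range, Set.mem_Iio] at hi hi'
      have h1 : f (j + 1 + i) = f (j + 1 + i') := sub_left_injective hii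
      have := hinj (j + 1 + i) (by omega) (j + 1 + i') (by omega) h1
      omega
    rw [mem_biUnion]
    refine ⟨g 0, hg0, ?_⟩
    rw [mem_biUnion]
    refine ⟨(range k).image g, ?_, ?_⟩
    · simp only [good, mem_filter]
      refine ⟨mem_chains D k g hgstep, ?_, ?_⟩
      · rw [card_image_of_injOn hginj, card_range]
      · exact chain_norm_le D k g hgstep
    · simp only [A, mem_filter, mem_range]
      refine ⟨ht, fun s hs => ?_⟩
      rw [mem_image] at hs
      obtain ⟨i, hi, rfl⟩ := hs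
      rw [mem_range] at hi
      have e : f 0 + g i + t * ω = f (j + 1 + i) := by
        rw [hg]
        ring
      rw [e]
      exact ⟨hprime _ (by omega), hnorm _ (by omega)⟩
  have hA : ∀ u ∈ box H, ∀ S ∈ good u, ((A S).card : ℝ) ≤ T * Real.exp (-((E : ℝ) * k)) := by
    intro u _ S hS
    simp only [good, mem_filter] at hS
    exact hcore S hS.2.1 hS.2.2
  have hX : 0 ≤ T * Real.exp (-((E : ℝ) * k)) := by positivity
  calc (T : ℝ) = ((range T).card : ℝ) := by rw [card_range]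
    _ ≤ (((box H).biUnion (fun u => (good u).biUnion A)).card : ℝ) := by
        exact_mod_cast card_le_card hcover
    _ ≤ ∑ u ∈ box H, (((good u).biUnion A).card : ℝ) := by
        exact_mod_cast card_biUnion_le
    _ ≤ ∑ u ∈ box H, ∑ S ∈ good u, ((A S).card : ℝ) := by
        apply sum_le_sum
        intro u _
        exact_mod_cast card_biUnion_le
    _ ≤ ∑ u ∈ box H, ∑ _S ∈ good u, T * Real.exp (-((E : ℝ) * k)) :=
        sum_le_sum (fun u hu => sum_le_sum (fun S hS => hA u hu S hS))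
    _ ≤ ∑ _u ∈ box H, ((2 * (D : ℝ) + 1) ^ 2) ^ k * (T * Real.exp (-((E : ℝ) * k))) := by
        apply sum_le_sum
        intro u _
        rw [sum_const, nsmul_eq_mul]
        have h1 : (good u).card ≤ ((2 * D + 1) ^ 2) ^ k :=
          (card_filter_le _ _).trans (card_chains_le D k u)
        have h2 : ((good u).card : ℝ) ≤ ((2 * (D : ℝ) + 1) ^ 2) ^ k := by exact_mod_cast h1
        gcongr
    _ ≤ (2 * (H : ℝ) + 1) ^ 2 * (((2 * (D : ℝ) + 1) ^ 2) ^ k * (T * Real.exp (-((E : ℝ) * k)))) := by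
        rw [sum_const, nsmul_eq_mul]
        have h2 : ((box H).card : ℝ) ≤ (2 * (H : ℝ) + 1) ^ 2 := by exact_mod_cast card_box_le H
        gcongr
    _ = _ := by ring

end Vale.Agent.P015h2
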