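import Mathlib
import Vale.Agent.P015_h2.Tube

/-!
# The tube theorem for sequences of Gaussian primes
-/

namespace Vale.Agent.P015h2

open Finset

lemma log_sixteen_gt_one : 1 < Real.log 16 := by
  have h1 : Real.log (Real.exp 1) < Real.log 16 :=
    Real.log_lt_log (Real.exp_pos 1) (by
      have := Real.exp_one_lt_d9
      linarith)
  rwa [Real.log_exp] at h1

lemma rpow_le_exp_kk (c₀ : ℝ) (hc₀ : 0 < c₀) (T : ℕ) (hT : 16 ≤ T) (hk : 3 ≤ kk c₀ T) (L : ℝ)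
    (h1 : (T : ℝ) ≤ L) (h2 : L ≤ 16 * (T : ℝ) ^ 2) :
    L ^ (c₀ / 4 / Real.log (Real.log L)) ≤ Real.exp (kk c₀ T) := by
  have hT16 : (16 : ℝ) ≤ T := by exact_mod_cast hT
  have hTpos : (0 : ℝ) < T := by linarith
  have hLpos : 0 < L := by linarith
  have hlogT : 1 < Real.log T := by
    have := Real.log_le_log (by norm_num : (0 : ℝ) < 16) hT16
    linarith [log_sixteen_gt_one]
  have hlogL : Real.log T ≤ Real.log L := Real.log_le_log hTpos h1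
  have hlogL3 : Real.log L ≤ 3 * Real.log T := by
    have h3 : L ≤ (T : ℝ) ^ 3 := by nlinarith [sq_nonneg (T : ℝ)]
    have h4 := Real.log_le_log hLpos h3
    rw [Real.log_pow] at h4
    exact_mod_cast h4
  have hll : 0 < Real.log (Real.log T) := Real.log_pos hlogT
  have hllL : Real.log (Real.log T) ≤ Real.log (Real.log L) :=
    Real.log_le_log (by linarith) hlogL
  rw [Real.rpow_def_of_pos hLpos]
  apply Real.exp_le_exp.2
  have hkk : c₀ * Real.log T / Real.log (Real.log T) < kk c₀ T + 1 := Nat.lt_floor_add_one _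
  have hk3 : (3 : ℝ) ≤ kk c₀ T := by exact_mod_cast hk
  calc Real.log L * (c₀ / 4 / Real.log (Real.log L))
      = c₀ / 4 * Real.log L / Real.log (Real.log L) := by ring
    _ ≤ c₀ / 4 * (3 * Real.log T) / Real.log (Real.log T) := by gcongr
    _ = 3 / 4 * (c₀ * Real.log T / Real.log (Real.log T)) := by ring
    _ ≤ 3 / 4 * (kk c₀ T + 1) := by gcongr
    _ ≤ kk c₀ T := by linarith

lemma exp_combination (D : ℕ) (E k : ℕ) (X : ℝ) (hX : 0 < X) (hk : 1 ≤ k)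
    (hE : Real.log X < E) : X ^ k * Real.exp (-((E : ℝ) * k)) < 1 := by
  have h1 : X * Real.exp (-(E : ℝ)) < 1 := by
    calc X * Real.exp (-(E : ℝ)) = Real.exp (Real.log X + -(E : ℝ)) := by
          rw [Real.exp_add, Real.exp_log hX]
      _ < 1 := Real.exp_lt_one_iff.2 (by linarith)
  have h3 : X ^ k * Real.exp (-((E : ℝ) * k)) = (X * Real.exp (-(E : ℝ))) ^ k := by
    rw [mul_pow, ← Real.exp_nat_mul]
    congr 2
    ring
  rw [h3]
  exact pow_lt_one₀ (by positivity) h1 (by omega)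

lemma card_factor_le (D k H : ℕ) (h : ℝ) (hk : 1 ≤ k) (hH' : (H : ℝ) < 4 * h + D + 1 + 1)
    (hexp : h ≤ Real.exp k) :
    ((2 * (H : ℝ) + 1) ^ 2 * ((2 * (D : ℝ) + 1) ^ 2) ^ k)
      ≤ ((2 * (D : ℝ) + 13) ^ 2 * (Real.exp 1) ^ 2 * (2 * (D : ℝ) + 1) ^ 2) ^ k := by
  have hk0 : (0 : ℝ) ≤ k := by positivity
  have hD0 : (0 : ℝ) ≤ D := by positivity
  have hek : (1 : ℝ) ≤ Real.exp k := Real.one_le_exp hk0
  have h1 : 2 * (H : ℝ) + 1 ≤ (2 * (D : ℝ) + 13) * Real.exp k := by nlinarith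
  have h2 : (2 * (D : ℝ) + 13) ≤ (2 * (D : ℝ) + 13) ^ k := by
    apply le_self_pow₀ (by linarith) (by omega)
  have h3 : 2 * (H : ℝ) + 1 ≤ ((2 * (D : ℝ) + 13) * Real.exp 1) ^ k := by
    calc 2 * (H : ℝ) + 1 ≤ (2 * (D : ℝ) + 13) * Real.exp k := h1
      _ ≤ (2 * (D : ℝ) + 13) ^ k * Real.exp k := by gcongr
      _ = ((2 * (D : ℝ) + 13) * Real.exp 1) ^ k := by
        rw [mul_pow, ← Real.exp_nat_mul, mul_one]
  calc ((2 * (H : ℝ) + 1) ^ 2 * ((2 * (D : ℝ) + 1) ^ 2) ^ k)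
      ≤ (((2 * (D : ℝ) + 13) * Real.exp 1) ^ k) ^ 2 * ((2 * (D : ℝ) + 1) ^ 2) ^ k := by
        gcongr
    _ = _ := by
        rw [← pow_mul, mul_comm k 2, pow_mul, ← mul_pow]
        ring

open scoped Classical in
/-- The tube theorem, for sequences away from the origin, with the coordinate increasing. -/
lemma tube_seq_core_aux (D E : ℕ) (c₀ : ℝ) (hc₀ : 0 < c₀) (T₀ : ℕ)
    (hE : Real.log ((2 * (D : ℝ) + 13) ^ 2 * (Real.exp 1) ^ 2 * (2 * (D : ℝ) + 1) ^ 2) < E)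
    (hE1 : 1 ≤ E)
    (hcore : ∀ T : ℕ, T₀ ≤ T →
      3 ≤ kk c₀ T ∧ (E : ℝ) * kk c₀ T ≤ Real.log T / 4 ∧
      ∀ S : Finset GaussianInt, S.card = kk c₀ T →
      (∀ s ∈ S, ∀ s' ∈ S, (s - s').norm ≤ 2 * ((kk c₀ T : ℤ) * D) ^ 2) →
      ∀ w : GaussianInt, w ≠ 0 → w.norm ≤ (T : ℤ) ^ 4 → ∀ z₀ : GaussianInt,
      (((range T).filter (fun t : ℕ => ∀ s ∈ S, Prime (z₀ + s + t * w) ∧
        (T : ℤ) < (z₀ + s + t * w).norm)).card : ℝ) ≤ T * Real.exp (-((E : ℝ) * kk c₀ T)))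
    (T : ℕ) (hT₀ : T₀ ≤ T) (hT16 : 16 ≤ T) (hTD : D + 8 ≤ T) (L : ℝ) (hL1 : 4 * (T : ℝ) ^ 2 ≤ L)
    (hL2 : L ≤ 16 * (T : ℝ) ^ 2) (a v : ℂ) (hv : ‖v‖ = 1)
    (f : ℕ → GaussianInt) (n : ℕ)
    (hprime : ∀ i, i ≤ n → Prime (f i)) (hinj : ∀ i, i ≤ n → ∀ j, j ≤ n → f i = f j → i = j)
    (hstep : ∀ i, i < n → ‖(f (i + 1) : ℂ) - f i‖ ≤ D)
    (hfar : ∀ i, i ≤ n → L ≤ ‖(f i : ℂ)‖ ^ 2)
    (hline : ∀ i, i ≤ n → ∃ s : ℝ, ‖(f i : ℂ) - (a + s * v)‖ ≤
      L ^ (c₀ / 4 / Real.log (Real.log L)))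
    (hcoord : L - 4 * L ^ (c₀ / 4 / Real.log (Real.log L)) ≤ coord a v (f n) - coord a v (f 0)) :
    False := by
  obtain ⟨hk3, hkE, hS⟩ := hcore T hT₀
  set k := kk c₀ T with hk
  set h : ℝ := L ^ (c₀ / 4 / Real.log (Real.log L)) with hh
  have hTr : (16 : ℝ) ≤ T := by exact_mod_cast hT16
  have hTpos : (0 : ℝ) < T := by linarith
  have hTL : (T : ℝ) ≤ L := by nlinarith
  have hLpos : 0 < L := by linarith
  have hexp : h ≤ Real.exp k := rpow_le_exp_kk c₀ hc₀ T hT16 hk3 L hTL hL2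
  have hh0 : 0 ≤ h := by
    rw [hh]
    positivity
  have hE1' : (1 : ℝ) ≤ E := by exact_mod_cast hE1
  have hk0 : (0 : ℝ) ≤ k := by positivity
  have hklog : (k : ℝ) ≤ Real.log T / 4 := by nlinarith
  have hlogT : Real.log T ≤ T := (Real.log_le_sub_one_of_pos hTpos).trans (by linarith)
  have hkT : (k : ℝ) + 1 ≤ T := by linarith
  have hexpT : Real.exp k ≤ T := by
    calc Real.exp k ≤ Real.exp (Real.log T) := Real.exp_le_exp.2 (by
          have : 0 ≤ Real.log T := Real.log_nonneg (by linarith)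
          linarith)
      _ = T := Real.exp_log hTpos
  have hhT : h ≤ T := hexp.trans hexpT
  obtain ⟨ω, τ, hω0, hτ, hωτ, hωn⟩ := exists_direction v hv T (by omega)
  have hωn4 : ω.norm ≤ (T : ℤ) ^ 4 := by
    have h1 : (2 : ℤ) ≤ (T : ℤ) ^ 2 := by
      have : (16 : ℤ) ≤ T := by exact_mod_cast hT16
      nlinarith
    nlinarith [sq_nonneg (T : ℤ)]
  have hω2 : ‖(ω : ℂ)‖ ≤ 2 * T := by
    have h1 : ‖(ω : ℂ)‖ ^ 2 ≤ 2 * (T : ℝ) ^ 2 := by
      rw [norm_sq_toComplex]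
      exact_mod_cast hωn
    have h2 : ‖(ω : ℂ)‖ ^ 2 ≤ (2 * (T : ℝ)) ^ 2 := by nlinarith
    exact le_of_sq_le_sq h2 (by positivity)
  have hτ3 : τ ≤ 2 * T + 1 := by
    have h1 : ‖((τ : ℝ) : ℂ) * v‖ = τ := by
      rw [norm_mul, hv, mul_one, Complex.norm_real, Real.norm_eq_abs, abs_of_pos hτ]
    have h2 : ‖((τ : ℝ) : ℂ) * v‖ ≤ ‖(ω : ℂ)‖ + ‖(ω : ℂ) - τ * v‖ := by
      have := norm_sub_le (ω : ℂ) ((ω : ℂ) - τ * v)
      rwa [sub_sub_cancel] at this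
    have h3 : (1 : ℝ) / T ≤ 1 := by
      rw [div_le_one hTpos]
      linarith
    linarith
  have hline' : ∀ i, i ≤ n → ‖(f i : ℂ) - (a + (coord a v (f i) : ℝ) * v)‖ ≤ 2 * h := by
    intro i hi
    obtain ⟨s, hs⟩ := hline i hi
    exact coord_dist a v (f i) hv s h hs
  have hnorm : ∀ i, i ≤ n → (T : ℤ) < (f i).norm := by
    intro i hi
    have h1 := hfar i hi
    rw [norm_sq_toComplex] at h1
    have h2 : (T : ℝ) < ((f i).norm : ℝ) := by nlinarith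
    exact_mod_cast h2
  set H : ℕ := ⌈4 * h + D + 1⌉₊ with hHdef
  have hH : 4 * h + D + 1 ≤ H := Nat.le_ceil _
  have hH' : (H : ℝ) < 4 * h + D + 1 + 1 := Nat.ceil_lt_add_one (by positivity)
  have hDT : (D : ℝ) + 8 ≤ T := by exact_mod_cast hTD
  have hD0 : (0 : ℝ) ≤ D := by positivity
  have hσ : coord a v (f 0) + T * τ + (k + 1) * D < coord a v (f n) := by
    have h1 : (T : ℝ) * τ ≤ T * (2 * T + 1) := by gcongr
    have h2 : ((k : ℝ) + 1) * D ≤ T * D := by gcongr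
    have h3 : (T : ℝ) * (2 * T + 1) + T * D + 4 * T < 4 * (T : ℝ) ^ 2 := by nlinarith
    linarith
  have hfinal := tube_count D E T k H n h τ a v hv ω f (by omega)
    (fun S hSc hSn => hS S hSc hSn ω hω0 hωn4 (f 0)) hprime hinj hstep hnorm hline' hσ hωτ hτ hH
  have hX := card_factor_le D k H h (by omega) hH' hexp
  have hlt := exp_combination D E k
    ((2 * (D : ℝ) + 13) ^ 2 * (Real.exp 1) ^ 2 * (2 * (D : ℝ) + 1) ^ 2) (by positivity)
    (by omega) hE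
  have : (T : ℝ) < T := by
    calc (T : ℝ) ≤ ((2 * (H : ℝ) + 1) ^ 2 * ((2 * (D : ℝ) + 1) ^ 2) ^ k) *
          (T * Real.exp (-((E : ℝ) * k))) := hfinal
      _ ≤ ((2 * (D : ℝ) + 13) ^ 2 * (Real.exp 1) ^ 2 * (2 * (D : ℝ) + 1) ^ 2) ^ k *
          (T * Real.exp (-((E : ℝ) * k))) := by gcongr
      _ = (((2 * (D : ℝ) + 13) ^ 2 * (Real.exp 1) ^ 2 * (2 * (D : ℝ) + 1) ^ 2) ^ k *
          Real.exp (-((E : ℝ) * k))) * T := by ring
      _ < 1 * T := by gcongr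
      _ = T := one_mul _
  exact lt_irrefl _ this

/-- The tube theorem for sequences away from the origin. -/
lemma tube_seq_core (D : ℕ) : ∃ c : ℝ, 0 < c ∧ ∃ L₀ : ℝ, ∀ L : ℝ, L₀ ≤ L →
    ∀ (a v : ℂ), ‖v‖ = 1 → ∀ (f : ℕ → GaussianInt) (n : ℕ),
    (∀ i, i ≤ n → Prime (f i)) → (∀ i, i ≤ n → ∀ j, j ≤ n → f i = f j → i = j) →
    (∀ i, i < n → ‖(f (i + 1) : ℂ) - f i‖ ≤ D) →
    (∀ i, i ≤ n → L ≤ ‖(f i : ℂ)‖ ^ 2) →
    (∀ i, i ≤ n → ∃ s : ℝ, ‖(f i : ℂ) - (a + s * v)‖ ≤ L ^ (c / Real.log (Real.log L))) →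
    ‖(f n : ℂ) - f 0‖ < L := by
  obtain ⟨E, hE⟩ := exists_nat_gt
    (Real.log ((2 * (D : ℝ) + 13) ^ 2 * (Real.exp 1) ^ 2 * (2 * (D : ℝ) + 1) ^ 2))
  have hE1 : 1 ≤ E := by
    by_contra hcon
    have h0 : E = 0 := by omega
    rw [h0] at hE
    have h1 : 0 ≤ Real.log ((2 * (D : ℝ) + 13) ^ 2 * (Real.exp 1) ^ 2 * (2 * (D : ℝ) + 1) ^ 2) := by
      apply Real.log_nonneg
      have h2 : (1 : ℝ) ≤ (2 * (D : ℝ) + 13) ^ 2 := by
        have : (0 : ℝ) ≤ D := by positivity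
        nlinarith
      have h3 : (1 : ℝ) ≤ (Real.exp 1) ^ 2 := by
        have : (1 : ℝ) ≤ Real.exp 1 := Real.one_le_exp (by norm_num)
        nlinarith
      have h4 : (1 : ℝ) ≤ (2 * (D : ℝ) + 1) ^ 2 := by
        have : (0 : ℝ) ≤ D := by positivity
        nlinarith
      exact one_le_mul_of_one_le_of_one_le (one_le_mul_of_one_le_of_one_le h2 h3) h4
    push_cast at hE
    linarith
  obtain ⟨c₀, hc₀, _, T₀, _, hcore⟩ := core_asymptotic D E
  refine ⟨c₀ / 4, by positivity, 16 * ((T₀ : ℝ) + 16 + (D + 8)) ^ 2, ?_⟩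
  intro L hL a v hv f n hprime hinj hstep hfar hline
  by_contra hcon
  push Not at hcon
  set T : ℕ := ⌊Real.sqrt L / 2⌋₊ with hT
  have hL0 : 0 ≤ L := le_trans (by positivity) hL
  have hsqrt : 2 * ((T₀ : ℝ) + 16 + (D + 8)) ≤ Real.sqrt L / 2 := by
    have h1 : 4 * ((T₀ : ℝ) + 16 + (D + 8)) ≤ Real.sqrt L := by
      apply Real.le_sqrt_of_sq_le
      calc (4 * ((T₀ : ℝ) + 16 + (D + 8))) ^ 2 = 16 * ((T₀ : ℝ) + 16 + (D + 8)) ^ 2 := by ring
        _ ≤ L := hL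
    linarith
  have hTle : (T : ℝ) ≤ Real.sqrt L / 2 := Nat.floor_le (by positivity)
  have hTlt : Real.sqrt L / 2 < T + 1 := Nat.lt_floor_add_one _
  have hTbig : T₀ + 16 + (D + 8) ≤ T := by
    have h1 : ((T₀ + 16 + (D + 8) : ℕ) : ℝ) ≤ T := by
      push_cast
      have : (0 : ℝ) ≤ T₀ := by positivity
      have : (0 : ℝ) ≤ D := by positivity
      linarith
    exact_mod_cast h1
  have hTr : (16 : ℝ) ≤ T := by
    have : (16 : ℕ) ≤ T := by omega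
    exact_mod_cast this
  have hsq : Real.sqrt L ^ 2 = L := Real.sq_sqrt hL0
  have hL1 : 4 * (T : ℝ) ^ 2 ≤ L := by
    have h1 : 2 * (T : ℝ) ≤ Real.sqrt L := by linarith
    have h2 : (2 * (T : ℝ)) ^ 2 ≤ Real.sqrt L ^ 2 := by gcongr
    rw [hsq] at h2
    linarith
  have hL2 : L ≤ 16 * (T : ℝ) ^ 2 := by
    have h1 : Real.sqrt L ≤ 4 * (T : ℝ) := by linarith
    have h2 : Real.sqrt L ^ 2 ≤ (4 * (T : ℝ)) ^ 2 := by gcongr
    rw [hsq] at h2
    linarith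
  set h : ℝ := L ^ (c₀ / 4 / Real.log (Real.log L)) with hh
  -- the coordinates of the two ends differ a lot
  have hdiff : L - 4 * h ≤ |coord a v (f n) - coord a v (f 0)| := by
    obtain ⟨s, hs⟩ := hline n le_rfl
    obtain ⟨s', hs'⟩ := hline 0 (Nat.zero_le n)
    have h1 := coord_dist a v (f n) hv s h hs
    have h2 := coord_dist a v (f 0) hv s' h hs'
    have h3 : (f n : ℂ) - f 0 = ((f n : ℂ) - (a + (coord a v (f n) : ℝ) * v))
        - ((f 0 : ℂ) - (a + (coord a v (f 0) : ℝ) * v))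
        + ((coord a v (f n) - coord a v (f 0) : ℝ) : ℂ) * v := by
      push_cast
      ring
    have h4 : ‖((coord a v (f n) - coord a v (f 0) : ℝ) : ℂ) * v‖
        = |coord a v (f n) - coord a v (f 0)| := by
      rw [norm_mul, hv, mul_one, Complex.norm_real, Real.norm_eq_abs]
    have h5 : ‖(f n : ℂ) - f 0‖ ≤ 2 * h + 2 * h + |coord a v (f n) - coord a v (f 0)| := by
      rw [h3, ← h4]
      refine (norm_add_le _ _).trans ?_
      gcongr
      exact (norm_sub_le _ _).trans (add_le_add h1 h2)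
    linarith
  rcases le_or_gt 0 (coord a v (f n) - coord a v (f 0)) with hpos | hneg
  · rw [abs_of_nonneg hpos] at hdiff
    exact tube_seq_core_aux D E c₀ hc₀ T₀ hE hE1 hcore T (by omega) (by omega) (by omega) L hL1 hL2
      a v hv f n hprime hinj hstep hfar hline hdiff
  · rw [abs_of_neg hneg] at hdiff
    have hcneg : ∀ u, coord a (-v) u = - coord a v u := by
      intro u
      unfold coord
      rw [map_neg, mul_neg, Complex.neg_re]
    apply tube_seq_core_aux D E c₀ hc₀ T₀ hE hE1 hcore T (by omega) (by omega) (by omega) L hL1 hL2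
      a (-v) (by rw [norm_neg]; exact hv) f n hprime hinj hstep hfar
    · intro i hi
      obtain ⟨s, hs⟩ := hline i hi
      refine ⟨-s, ?_⟩
      have : a + ((-s : ℝ) : ℂ) * -v = a + s * v := by
        push_cast
        ring
      rw [this]
      exact hs
    · rw [hcneg, hcneg]
      linarith

end Vale.Agent.P015h2
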