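import Mathlib
import Vale.Agent.P015_h2.TubeSeq

/-!
# The tube theorem for sequences of Gaussian primes, anywhere in the plane
-/

namespace Vale.Agent.P015h2

open Finset

lemma rpow_compare (c L : ℝ) (hc : 0 < c) (hL : 100 ≤ L) :
    L ^ (c / 2 / Real.log (Real.log L)) ≤ (L / 5) ^ (c / Real.log (Real.log (L / 5))) := by
  have hL5 : (16 : ℝ) ≤ L / 5 := by linarith
  have hLpos : 0 < L := by linarith
  have hL5pos : 0 < L / 5 := by linarith
  have h1 : 1 < Real.log (L / 5) := by
    have := Real.log_le_log (by norm_num : (0 : ℝ) < 16) hL5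
    linarith [log_sixteen_gt_one]
  have h2 : Real.log (L / 5) ≤ Real.log L := Real.log_le_log hL5pos (by linarith)
  have h3 : Real.log L ≤ 2 * Real.log (L / 5) := by
    have h4 : L ≤ (L / 5) ^ 2 := by nlinarith
    have h5 := Real.log_le_log hLpos h4
    rw [Real.log_pow] at h5
    exact_mod_cast h5
  have h4 : 0 < Real.log (Real.log (L / 5)) := Real.log_pos h1
  have h5 : Real.log (Real.log (L / 5)) ≤ Real.log (Real.log L) :=
    Real.log_le_log (by linarith) h2
  rw [Real.rpow_def_of_pos hLpos, Real.rpow_def_of_pos hL5pos]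
  apply Real.exp_le_exp.2
  calc Real.log L * (c / 2 / Real.log (Real.log L))
      = c / 2 * Real.log L / Real.log (Real.log L) := by ring
    _ ≤ c / 2 * (2 * Real.log (L / 5)) / Real.log (Real.log (L / 5)) := by gcongr
    _ = Real.log (L / 5) * (c / Real.log (Real.log (L / 5))) := by ring

/-- The tube theorem for sequences of Gaussian primes. -/
theorem tube_seq (D : ℕ) : ∃ c : ℝ, 0 < c ∧ ∃ L₀ : ℝ, ∀ L : ℝ, L₀ ≤ L →
    ∀ (a v : ℂ), ‖v‖ = 1 → ∀ (f : ℕ → GaussianInt) (n : ℕ),
    (∀ i, i ≤ n → Prime (f i)) → (∀ i, i ≤ n → ∀ j, j ≤ n → f i = f j → i = j) →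
    (∀ i, i < n → ‖(f (i + 1) : ℂ) - f i‖ ≤ D) →
    (∀ i, i ≤ n → ∃ s : ℝ, ‖(f i : ℂ) - (a + s * v)‖ ≤ L ^ (c / Real.log (Real.log L))) →
    ‖(f n : ℂ) - f 0‖ < L := by
  obtain ⟨c, hc, L₀, hL₀⟩ := tube_seq_core D
  refine ⟨c / 2, by positivity, max (5 * L₀) (100 + 20 * D), ?_⟩
  intro L hL a v hv
  have hD0 : (0 : ℝ) ≤ D := by positivity
  have hL1 : 5 * L₀ ≤ L := (le_max_left _ _).trans hL
  have hL2 : 100 + 20 * (D : ℝ) ≤ L := (le_max_right _ _).trans hL
  have hcmp := rpow_compare c L hc (by linarith)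
  have key : ∀ (f : ℕ → GaussianInt) (n : ℕ),
      (∀ i, i ≤ n → Prime (f i)) → (∀ i, i ≤ n → ∀ j, j ≤ n → f i = f j → i = j) →
      (∀ i, i < n → ‖(f (i + 1) : ℂ) - f i‖ ≤ D) →
      (∀ i, i ≤ n → ∃ s : ℝ, ‖(f i : ℂ) - (a + s * v)‖ ≤
        L ^ (c / 2 / Real.log (Real.log L))) →
      L / 2 ≤ ‖(f n : ℂ)‖ → L ≤ ‖(f n : ℂ) - f 0‖ → False := by
    intro f n hprime hinj hstep hline hend hfar
    by_cases hex : ∃ j, j ≤ n ∧ ‖(f j : ℂ)‖ ≤ L / 4
    · obtain ⟨j₀, hj₀, hj₀'⟩ := hex
      classical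
      set j := Nat.findGreatest (fun j => ‖(f j : ℂ)‖ ≤ L / 4) n with hj
      have hj1 : ‖(f j : ℂ)‖ ≤ L / 4 :=
        Nat.findGreatest_spec (P := fun j => ‖(f j : ℂ)‖ ≤ L / 4) hj₀ hj₀'
      have hjn : j ≤ n := Nat.findGreatest_le n
      have hjn' : j ≠ n := by
        intro h
        rw [h] at hj1
        linarith
      have hj2 : ∀ i, j < i → i ≤ n → L / 4 < ‖(f i : ℂ)‖ := by
        intro i hi hin
        have := Nat.findGreatest_is_greatest (P := fun j => ‖(f j : ℂ)‖ ≤ L / 4) hi hin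
        push Not at this
        exact this
      have hlt := hL₀ (L / 5) (by linarith) a v hv (fun i => f (j + 1 + i)) (n - (j + 1))
        (fun i hi => hprime _ (by omega))
        (fun i hi i' hi' h => by
          have := hinj (j + 1 + i) (by omega) (j + 1 + i') (by omega) h
          omega)
        (fun i hi => hstep (j + 1 + i) (by omega))
        (fun i hi => by
          have h1 := hj2 (j + 1 + i) (by omega) (by omega)
          show L / 5 ≤ ‖(f (j + 1 + i) : ℂ)‖ ^ 2
          nlinarith)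
        (fun i hi => by
          obtain ⟨s, hs⟩ := hline (j + 1 + i) (by omega)
          exact ⟨s, hs.trans hcmp⟩)
      have e1 : j + 1 + (n - (j + 1)) = n := by omega
      simp only [e1, add_zero] at hlt
      have h1 : ‖(f (j + 1) : ℂ)‖ ≤ L / 4 + D := by
        have h2 := hstep j (by omega)
        calc ‖(f (j + 1) : ℂ)‖ = ‖((f (j + 1) : ℂ) - f j) + f j‖ := by
              congr 1
              ring
          _ ≤ ‖(f (j + 1) : ℂ) - f j‖ + ‖(f j : ℂ)‖ := norm_add_le _ _
          _ ≤ L / 4 + D := by linarith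
      have h3 : ‖(f n : ℂ)‖ ≤ ‖(f n : ℂ) - f (j + 1)‖ + ‖(f (j + 1) : ℂ)‖ := by
        calc ‖(f n : ℂ)‖ = ‖((f n : ℂ) - f (j + 1)) + f (j + 1)‖ := by
              congr 1
              ring
          _ ≤ _ := norm_add_le _ _
      linarith
    · push Not at hex
      have hlt := hL₀ (L / 5) (by linarith) a v hv f n hprime hinj hstep
        (fun i hi => by
          have h1 := hex i hi
          nlinarith)
        (fun i hi => by
          obtain ⟨s, hs⟩ := hline i hi
          exact ⟨s, hs.trans hcmp⟩)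
      linarith
  intro f n hprime hinj hstep hline
  by_contra hcon
  push Not at hcon
  rcases le_or_gt (L / 2) ‖(f n : ℂ)‖ with hcase | hcase
  · exact key f n hprime hinj hstep hline hcase hcon
  · have h0 : L / 2 ≤ ‖(f 0 : ℂ)‖ := by
      have := norm_sub_le (f n : ℂ) (f 0 : ℂ)
      linarith
    refine key (fun i => f (n - i)) n (fun i hi => hprime _ (by omega))
      (fun i hi j hj h => by
        have := hinj (n - i) (by omega) (n - j) (by omega) h
        omega) (fun i hi => ?_) (fun i hi => hline _ (by omega)) ?_ ?_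
    · have h1 := hstep (n - (i + 1)) (by omega)
      have e : n - (i + 1) + 1 = n - i := by omega
      rw [e] at h1
      rw [norm_sub_rev]
      exact h1
    · simp only [Nat.sub_self]
      exact h0
    · simp only [Nat.sub_self, Nat.sub_zero]
      rw [norm_sub_rev]
      exact hcon

end Vale.Agent.P015h2
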