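import Mathlib
import Vale.Agent.P015_h2.TubeFree

/-!
# Counting Gaussian primes at the start of long paths
-/

namespace Vale.Agent.P015h2

open Finset

open scoped Classical in
lemma count_core (D E T k : ℕ) (x₀ y₀ : ℤ)
    (hcore : ∀ S : Finset GaussianInt, S.card = k →
      (∀ s ∈ S, ∀ s' ∈ S, (s - s').norm ≤ 2 * ((k : ℤ) * D) ^ 2) → ∀ z₀ : GaussianInt,
      (((range T).filter (fun t : ℕ => ∀ s ∈ S, Prime (z₀ + s + t * 1) ∧
        (T : ℤ) < (z₀ + s + t * 1).norm)).card : ℝ) ≤ T * Real.exp (-((E : ℝ) * k)))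
    (B : Finset GaussianInt)
    (hB : ∀ z ∈ B, (∃ t r : ℕ, t < T ∧ r < T ∧ z = ⟨x₀ + t, y₀ + r⟩) ∧
      ∃ f : ℕ → GaussianInt, f 0 = z ∧ (∀ i, i < k → Prime (f i) ∧ (T : ℤ) < (f i).norm) ∧
        (∀ i, i < k → ∀ j, j < k → f i = f j → i = j) ∧
        (∀ i, i < k → f (i + 1) - f i ∈ box D)) :
    (B.card : ℝ) ≤ T * (((2 * (D : ℝ) + 1) ^ 2) ^ k * (T * Real.exp (-((E : ℝ) * k)))) := by
  let good : Finset (Finset GaussianInt) :=
    (chains D k 0).filter (fun S => S.card = k ∧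
      ∀ s ∈ S, ∀ s' ∈ S, (s - s').norm ≤ 2 * ((k : ℤ) * D) ^ 2)
  let A : ℕ → Finset GaussianInt → Finset ℕ := fun r S =>
    (range T).filter (fun t : ℕ => ∀ s ∈ S, Prime ((⟨x₀, y₀ + r⟩ : GaussianInt) + s + t * 1) ∧
        (T : ℤ) < ((⟨x₀, y₀ + r⟩ : GaussianInt) + s + t * 1).norm)
  have hcover : B ⊆ (range T).biUnion (fun r => good.biUnion (fun S =>
      (A r S).image (fun t : ℕ => (⟨x₀ + t, y₀ + r⟩ : GaussianInt)))) := by
    intro z hz
    obtain ⟨⟨t, r, ht, hr, hzt⟩, f, hf0, hfp, hfi, hfs⟩ := hB z hz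
    rw [mem_biUnion]
    refine ⟨r, mem_range.2 hr, ?_⟩
    rw [mem_biUnion]
    set g : ℕ → GaussianInt := fun i => f i - f 0 with hg
    have hgstep : ∀ i, i < k → g (i + 1) - g i ∈ box D := by
      intro i hi
      have e : g (i + 1) - g i = f (i + 1) - f i := by
        rw [hg]
        ring
      rw [e]
      exact hfs i hi
    have hginj : Set.InjOn g (range k) := by
      intro i hi i' hi' hii
      rw [coe_range, Set.mem_Iio] at hi hi'
      exact hfi i hi i' hi' (sub_left_injective hii)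
    refine ⟨(range k).image g, ?_, ?_⟩
    · simp only [good, mem_filter]
      refine ⟨?_, ?_, ?_⟩
      · have := mem_chains D k g hgstep
        have e : g 0 = 0 := by
          rw [hg]
          simp
        rwa [e] at this
      · rw [card_image_of_injOn hginj, card_range]
      · exact chain_norm_le D k g hgstep
    · rw [mem_image]
      refine ⟨t, ?_, hzt.symm⟩
      simp only [A, mem_filter, mem_range]
      refine ⟨ht, fun s hs => ?_⟩
      rw [mem_image] at hs
      obtain ⟨i, hi, rfl⟩ := hs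
      rw [mem_range] at hi
      have e : (⟨x₀, y₀ + r⟩ : GaussianInt) + g i + t * 1 = f i := by
        have e1 : (⟨x₀ + t, y₀ + r⟩ : GaussianInt) = ⟨x₀, y₀ + r⟩ + t := by
          apply Zsqrtd.ext <;> simp
        rw [hg]
        simp only
        rw [hf0, hzt, e1]
        ring
      rw [e]
      exact hfp i hi
  have hA : ∀ r : ℕ, ∀ S ∈ good, ((A r S).card : ℝ) ≤ T * Real.exp (-((E : ℝ) * k)) := by
    intro r S hS
    simp only [good, mem_filter] at hS
    exact hcore S hS.2.1 hS.2.2 _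
  have hX : 0 ≤ T * Real.exp (-((E : ℝ) * k)) := by positivity
  have hgood : (good.card : ℝ) ≤ ((2 * (D : ℝ) + 1) ^ 2) ^ k := by
    have h1 : good.card ≤ ((2 * D + 1) ^ 2) ^ k :=
      (card_filter_le _ _).trans (card_chains_le D k 0)
    exact_mod_cast h1
  calc (B.card : ℝ) ≤ (((range T).biUnion (fun r => good.biUnion (fun S =>
      (A r S).image (fun t : ℕ => (⟨x₀ + t, y₀ + r⟩ : GaussianInt))))).card : ℝ) := by
        exact_mod_cast card_le_card hcover
    _ ≤ ∑ r ∈ range T, ((good.biUnion (fun S =>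
      (A r S).image (fun t : ℕ => (⟨x₀ + t, y₀ + r⟩ : GaussianInt)))).card : ℝ) := by
        exact_mod_cast card_biUnion_le
    _ ≤ ∑ r ∈ range T, ∑ S ∈ good,
        (((A r S).image (fun t : ℕ => (⟨x₀ + t, y₀ + r⟩ : GaussianInt))).card : ℝ) := by
        apply sum_le_sum
        intro r _
        exact_mod_cast card_biUnion_le
    _ ≤ ∑ _r ∈ range T, ∑ _S ∈ good, T * Real.exp (-((E : ℝ) * k)) := by
        apply sum_le_sum
        intro r _
        apply sum_le_sum
        intro S hS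
        refine le_trans ?_ (hA r S hS)
        exact_mod_cast card_image_le
    _ = T * (good.card * (T * Real.exp (-((E : ℝ) * k)))) := by
        rw [sum_const, sum_const, card_range, nsmul_eq_mul, nsmul_eq_mul]
    _ ≤ T * (((2 * (D : ℝ) + 1) ^ 2) ^ k * (T * Real.exp (-((E : ℝ) * k)))) := by
        gcongr

/-- A disc of radius `R` lies in a box of side `2⌈R⌉+1`. -/
lemma disc_in_box (z₀ : ℂ) (R : ℝ) (z : GaussianInt) (hz : ‖(z : ℂ) - z₀‖ ≤ R) :
    ∃ t r : ℕ, t < 2 * ⌈R⌉₊ + 1 ∧ r < 2 * ⌈R⌉₊ + 1 ∧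
      z = ⟨⌊z₀.re - R⌋ + t, ⌊z₀.im - R⌋ + r⟩ := by
  have hR : R ≤ ⌈R⌉₊ := Nat.le_ceil R
  have key : ∀ (x : ℤ) (y : ℝ), |(x : ℝ) - y| ≤ R →
      ∃ t : ℕ, t < 2 * ⌈R⌉₊ + 1 ∧ x = ⌊y - R⌋ + t := by
    intro x y hxy
    have h1 := abs_le.1 hxy
    have h2 : (⌊y - R⌋ : ℝ) ≤ y - R := Int.floor_le _
    have h3 : y - R < ⌊y - R⌋ + 1 := Int.lt_floor_add_one _
    have h4 : ⌊y - R⌋ ≤ x := by
      have : (⌊y - R⌋ : ℝ) ≤ x := by linarith
      exact_mod_cast this
    have h5 : x < ⌊y - R⌋ + (2 * (⌈R⌉₊ : ℤ) + 1) := by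
      have : (x : ℝ) < ⌊y - R⌋ + (2 * (⌈R⌉₊ : ℝ) + 1) := by linarith
      exact_mod_cast this
    refine ⟨(x - ⌊y - R⌋).toNat, by omega, by omega⟩
  have h1 : |((z.re : ℤ) : ℝ) - z₀.re| ≤ R := by
    have := (Complex.abs_re_le_norm ((z : ℂ) - z₀)).trans hz
    rwa [Complex.sub_re, ← GaussianInt.intCast_re] at this
  have h2 : |((z.im : ℤ) : ℝ) - z₀.im| ≤ R := by
    have := (Complex.abs_im_le_norm ((z : ℂ) - z₀)).trans hz
    rwa [Complex.sub_im, ← GaussianInt.intCast_im] at this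
  obtain ⟨t, ht, ht'⟩ := key _ _ h1
  obtain ⟨r, hr, hr'⟩ := key _ _ h2
  exact ⟨t, r, ht, hr, Zsqrtd.ext ht' hr'⟩

lemma exp_twelve : (32 : ℝ) ≤ Real.exp 12 := by
  have h1 := Real.add_one_le_exp (4 : ℝ)
  have h2 : Real.exp 12 = Real.exp 4 ^ 3 := by
    rw [← Real.exp_nat_mul]
    norm_num
  rw [h2]
  calc (32 : ℝ) ≤ 5 ^ 3 := by norm_num
    _ ≤ Real.exp 4 ^ 3 := by
      gcongr
      linarith

/-- The saving `exp (-4 k)` in terms of `R`. -/
lemma saving_le (c₀ R : ℝ) (hc₀ : 0 < c₀) (T : ℕ) (hR : 16 ≤ R) (hRT : R ≤ T)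
    (hTR : (T : ℝ) ≤ R ^ 2) (hk : 3 ≤ kk c₀ T) :
    Real.exp (-(4 * (kk c₀ T : ℝ))) ≤ R ^ (-(c₀ / Real.log (Real.log R))) := by
  have hRpos : 0 < R := by linarith
  have hTpos : (0 : ℝ) < T := by linarith
  have hlog16 : 2 < Real.log 16 := by
    have h1 : Real.log 16 = 2 * Real.log 4 := by
      have : (16 : ℝ) = 4 ^ 2 := by norm_num
      rw [this, Real.log_pow]
      norm_num
    have h2 : 1 < Real.log 4 := by
      have h3 : Real.log (Real.exp 1) < Real.log 4 :=
        Real.log_lt_log (Real.exp_pos 1) (by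
          have := Real.exp_one_lt_d9
          linarith)
      rwa [Real.log_exp] at h3
    linarith
  have hlogR : 2 < Real.log R := by
    have := Real.log_le_log (by norm_num : (0 : ℝ) < 16) hR
    linarith
  have hlogT : Real.log R ≤ Real.log T := Real.log_le_log hRpos hRT
  have hlogT2 : Real.log T ≤ 2 * Real.log R := by
    have h1 := Real.log_le_log hTpos hTR
    rw [Real.log_pow] at h1
    exact_mod_cast h1
  have hll : 0 < Real.log (Real.log R) := Real.log_pos (by linarith)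
  have hllT : 0 < Real.log (Real.log T) := Real.log_pos (by linarith)
  have hllT2 : Real.log (Real.log T) ≤ 2 * Real.log (Real.log R) := by
    have h1 : Real.log T ≤ Real.log R ^ 2 := by nlinarith
    have h2 := Real.log_le_log (by linarith) h1
    rw [Real.log_pow] at h2
    exact_mod_cast h2
  rw [Real.rpow_def_of_pos hRpos]
  apply Real.exp_le_exp.2
  have hkk : c₀ * Real.log T / Real.log (Real.log T) < kk c₀ T + 1 := Nat.lt_floor_add_one _
  have hk3 : (3 : ℝ) ≤ kk c₀ T := by exact_mod_cast hk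
  have h1 : c₀ * Real.log R / (2 * Real.log (Real.log R)) ≤
      c₀ * Real.log T / Real.log (Real.log T) := by gcongr
  have h2 : c₀ * Real.log R / (2 * Real.log (Real.log R))
      = (1 / 2) * (c₀ * Real.log R / Real.log (Real.log R)) := by
    field_simp
  have h3 : 0 ≤ c₀ * Real.log R / Real.log (Real.log R) := by positivity
  have h4 : Real.log R * -(c₀ / Real.log (Real.log R))
      = -(c₀ * Real.log R / Real.log (Real.log R)) := by ring
  rw [h4]
  linarith

end Vale.Agent.P015h2
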