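import Mathlib
import Vale.Agent.P015_h2.Count

/-!
# Counting Gaussian primes at the start of long paths: final form
-/

namespace Vale.Agent.P015h2

open Finset

/-- Few Gaussian integers lie near the origin. -/
lemma card_near_le (B : Finset GaussianInt) (ρ : ℝ) (hρ : 0 ≤ ρ) (h : ∀ z ∈ B, ‖(z : ℂ)‖ ≤ ρ) :
    (B.card : ℝ) ≤ (2 * ρ + 3) ^ 2 := by
  have h1 : B ⊆ box ⌈ρ⌉₊ := by
    intro z hz
    exact mem_box_of_norm_le ((h z hz).trans (Nat.le_ceil ρ))
  have h2 : B.card ≤ (2 * ⌈ρ⌉₊ + 1) ^ 2 := (card_le_card h1).trans (card_box_le _)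
  have h3 : (⌈ρ⌉₊ : ℝ) < ρ + 1 := Nat.ceil_lt_add_one hρ
  calc (B.card : ℝ) ≤ (2 * (⌈ρ⌉₊ : ℝ) + 1) ^ 2 := by exact_mod_cast h2
    _ ≤ (2 * ρ + 3) ^ 2 := by
      apply pow_le_pow_left₀ (by positivity)
      linarith

lemma near_bound (c R : ℝ) (_hc : 0 < c) (hc1 : c ≤ 1) (hR : 100000 ≤ R)
    (hll : 2 ≤ Real.log (Real.log R)) :
    (2 * (4 * Real.sqrt R) + 3) ^ 2 ≤ 1 / 2 * R ^ (2 - c / Real.log (Real.log R)) := by
  have hRpos : 0 < R := by linarith
  have hs : 300 ≤ Real.sqrt R := by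
    apply Real.le_sqrt_of_sq_le
    linarith
  have hsq : Real.sqrt R ^ 2 = R := Real.sq_sqrt hRpos.le
  have h1 : (2 * (4 * Real.sqrt R) + 3) ^ 2 ≤ (9 * Real.sqrt R) ^ 2 := by
    gcongr
    linarith
  have h2 : (9 * Real.sqrt R) ^ 2 = 81 * R := by
    rw [mul_pow, hsq]
    norm_num
  have h3 : R ^ (3 / 2 : ℝ) ≤ R ^ (2 - c / Real.log (Real.log R)) := by
    apply Real.rpow_le_rpow_of_exponent_le (by linarith)
    have h4 : c / Real.log (Real.log R) ≤ 1 / 2 := by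
      calc c / Real.log (Real.log R) ≤ 1 / 2 := by
            gcongr
        _ = 1 / 2 := rfl
    linarith
  have h4 : R ^ (3 / 2 : ℝ) = R * Real.sqrt R := by
    rw [Real.sqrt_eq_rpow]
    nth_rewrite 2 [← Real.rpow_one R]
    rw [← Real.rpow_add hRpos]
    norm_num
  calc (2 * (4 * Real.sqrt R) + 3) ^ 2 ≤ 81 * R := by rw [← h2]; exact h1
    _ ≤ 1 / 2 * (R * Real.sqrt R) := by nlinarith
    _ ≤ 1 / 2 * R ^ (2 - c / Real.log (Real.log R)) := by
      rw [← h4]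
      gcongr

/-- Few Gaussian primes in a disc are the start of a path of bounded steps reaching distance
`log R`. -/
theorem count_seq (D : ℕ) : ∃ c : ℝ, 0 < c ∧ ∃ R₀ : ℝ, ∀ R : ℝ, R₀ ≤ R → ∀ z₀ : ℂ,
    ∀ B : Finset GaussianInt, (∀ z ∈ B, ‖(z : ℂ) - z₀‖ ≤ R ∧
      ∃ (f : ℕ → GaussianInt) (n : ℕ), f 0 = z ∧ (∀ i, i ≤ n → Prime (f i)) ∧
        (∀ i, i ≤ n → ∀ j, j ≤ n → f i = f j → i = j) ∧
        (∀ i, i < n → ‖(f (i + 1) : ℂ) - f i‖ ≤ D) ∧ Real.log R ≤ ‖(f n : ℂ) - f 0‖) →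
    (B.card : ℝ) ≤ R ^ (2 - c / Real.log (Real.log R)) := by
  obtain ⟨E₁, hE₁⟩ := exists_nat_gt (Real.log ((2 * (D : ℝ) + 1) ^ 2 * (Real.exp 1) ^ 8))
  set E : ℕ := max E₁ (max D 1) with hEdef
  have hE : Real.log ((2 * (D : ℝ) + 1) ^ 2 * (Real.exp 1) ^ 8) < E := by
    refine hE₁.trans_le ?_
    exact_mod_cast le_max_left _ _
  have hED : D ≤ E := (le_max_left _ _).trans (le_max_right _ _)
  have hE1 : 1 ≤ E := (le_max_right D 1).trans (le_max_right _ _)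
  obtain ⟨c₀, hc₀, hc₀1, T₀, _, hcore⟩ := core_asymptotic D E
  have hD0 : (0 : ℝ) ≤ D := by positivity
  refine ⟨c₀, hc₀, max (max 100000 T₀) (Real.exp (Real.exp 2)), ?_⟩
  intro R hR z₀ B hB
  have hR1 : 100000 ≤ R := (le_max_left _ _).trans ((le_max_left _ _).trans hR)
  have hRT₀ : (T₀ : ℝ) ≤ R := (le_max_right _ _).trans ((le_max_left _ _).trans hR)
  have hRexp : Real.exp (Real.exp 2) ≤ R := (le_max_right _ _).trans hR
  have hRpos : 0 < R := by linarith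
  have hlogR2 : Real.exp 2 ≤ Real.log R := (Real.le_log_iff_exp_le hRpos).2 hRexp
  have hlogRpos : 0 < Real.log R := (Real.exp_pos 2).trans_le hlogR2
  have hll : 2 ≤ Real.log (Real.log R) := (Real.le_log_iff_exp_le hlogRpos).2 hlogR2
  set T : ℕ := 2 * ⌈R⌉₊ + 1 with hTdef
  have hceil1 : R ≤ ⌈R⌉₊ := Nat.le_ceil R
  have hceil2 : (⌈R⌉₊ : ℝ) < R + 1 := Nat.ceil_lt_add_one hRpos.le
  have hTcast : (T : ℝ) = 2 * (⌈R⌉₊ : ℝ) + 1 := by
    rw [hTdef]
    push_cast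
    ring
  have hRT : R ≤ T := by linarith
  have hT4 : (T : ℝ) ≤ 4 * R := by linarith
  have hTR2 : (T : ℝ) ≤ R ^ 2 := by nlinarith
  have hTpos : (0 : ℝ) < T := by linarith
  have hTT₀ : T₀ ≤ T := by
    have : (T₀ : ℝ) ≤ T := hRT₀.trans hRT
    exact_mod_cast this
  obtain ⟨hk3, hkE, hS⟩ := hcore T hTT₀
  set k := kk c₀ T with hk
  have hk0 : (0 : ℝ) ≤ k := by positivity
  have hlogT : Real.log T ≤ 2 * Real.log R := by
    have h1 := Real.log_le_log hTpos hTR2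
    rw [Real.log_pow] at h1
    exact_mod_cast h1
  have hkD : (k : ℝ) * D ≤ Real.log R / 2 := by
    have h1 : (D : ℝ) * k ≤ E * k := by
      have : (D : ℝ) ≤ E := by exact_mod_cast hED
      gcongr
    linarith
  have hsq : Real.sqrt R ^ 2 = R := Real.sq_sqrt hRpos.le
  have hspos : 0 < Real.sqrt R := Real.sqrt_pos.2 hRpos
  have hlogs : Real.log R ≤ 2 * Real.sqrt R := by
    have h1 := Real.log_le_sub_one_of_pos hspos
    have h2 : Real.log R = 2 * Real.log (Real.sqrt R) := by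
      conv_lhs => rw [← hsq]
      rw [Real.log_pow]
      norm_num
    linarith
  classical
  set B₁ := B.filter (fun z : GaussianInt => ‖(z : ℂ)‖ ≤ 4 * Real.sqrt R) with hB₁
  set B₂ := B.filter (fun z : GaussianInt => ¬ ‖(z : ℂ)‖ ≤ 4 * Real.sqrt R) with hB₂
  have hcard : B.card = B₁.card + B₂.card :=
    (card_filter_add_card_filter_not (s := B)
      (fun z : GaussianInt => ‖(z : ℂ)‖ ≤ 4 * Real.sqrt R)).symm
  have h1 : (B₁.card : ℝ) ≤ 1 / 2 * R ^ (2 - c₀ / Real.log (Real.log R)) := by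
    refine le_trans ?_ (near_bound c₀ R hc₀ hc₀1 hR1 hll)
    apply card_near_le B₁ (4 * Real.sqrt R) (by positivity)
    intro z hz
    exact (mem_filter.1 hz).2
  have h2 : (B₂.card : ℝ) ≤ T * (((2 * (D : ℝ) + 1) ^ 2) ^ k *
      (T * Real.exp (-((E : ℝ) * k)))) := by
    apply count_core D E T k ⌊z₀.re - R⌋ ⌊z₀.im - R⌋
    · intro S hSc hSn z₁
      refine hS S hSc hSn 1 one_ne_zero ?_ z₁
      rw [Zsqrtd.norm_one]
      have : (1 : ℤ) ≤ T := by
        have : 1 ≤ T := by omega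
        exact_mod_cast this
      calc (1 : ℤ) = 1 ^ 4 := by norm_num
        _ ≤ (T : ℤ) ^ 4 := by gcongr
    · intro z hz
      rw [hB₂, mem_filter] at hz
      obtain ⟨hzB, hz4⟩ := hz
      push Not at hz4
      obtain ⟨hzR, f, n, hf0, hfp, hfi, hfs, hfn⟩ := hB z hzB
      refine ⟨disc_in_box z₀ R z hzR, f, hf0, ?_⟩
      have hkn : k < n := by
        by_contra hcon
        have h3 := seq_dist hD0 f n hfs 0 n (by omega)
        rw [zero_add] at h3
        have h4 : (n : ℝ) * D ≤ k * D := by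
          have : (n : ℝ) ≤ k := by exact_mod_cast (by omega : n ≤ k)
          gcongr
        linarith
      refine ⟨?_, ?_, ?_⟩
      · intro i hi
        refine ⟨hfp i (by omega), ?_⟩
        have h3 := seq_dist hD0 f n hfs 0 i (by omega)
        rw [zero_add] at h3
        have h4 : (i : ℝ) * D ≤ k * D := by
          have : (i : ℝ) ≤ k := by exact_mod_cast hi.le
          gcongr
        have h5 : ‖(f 0 : ℂ)‖ ≤ ‖(f i : ℂ)‖ + ‖(f i : ℂ) - f 0‖ := by
          have := norm_sub_le (f i : ℂ) ((f i : ℂ) - f 0)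
          rwa [sub_sub_cancel] at this
        rw [hf0] at h5 h3
        have h6 : 3 * Real.sqrt R ≤ ‖(f i : ℂ)‖ := by linarith
        have h7 : (3 * Real.sqrt R) ^ 2 ≤ ‖(f i : ℂ)‖ ^ 2 := by gcongr
        rw [mul_pow, hsq, norm_sq_toComplex] at h7
        have h8 : (T : ℝ) < ((f i).norm : ℝ) := by linarith
        exact_mod_cast h8
      · intro i hi j hj
        exact hfi i (by omega) j (by omega)
      · intro i hi
        apply mem_box_of_norm_le
        rw [GaussianInt.toComplex_sub]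
        exact hfs i (by omega)
  have h3 : ((2 * (D : ℝ) + 1) ^ 2) ^ k * Real.exp (-((E : ℝ) * k)) ≤ Real.exp (-(8 * (k : ℝ))) := by
    have h4 := exp_combination D E k ((2 * (D : ℝ) + 1) ^ 2 * (Real.exp 1) ^ 8) (by positivity)
      (by omega) hE
    rw [mul_pow, ← pow_mul (Real.exp 1) 8 k, ← Real.exp_nat_mul] at h4
    have h5 : Real.exp (-(8 * (k : ℝ))) * Real.exp (((8 * k : ℕ) : ℝ) * 1) = 1 := by
      rw [← Real.exp_add]
      push_cast
      rw [show -(8 * (k : ℝ)) + 8 * (k : ℝ) * 1 = 0 by ring, Real.exp_zero]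
    calc ((2 * (D : ℝ) + 1) ^ 2) ^ k * Real.exp (-((E : ℝ) * k))
        = (((2 * (D : ℝ) + 1) ^ 2) ^ k * Real.exp (((8 * k : ℕ) : ℝ) * 1)
          * Real.exp (-((E : ℝ) * k))) * Real.exp (-(8 * (k : ℝ))) := by
          linear_combination (-(((2 * (D : ℝ) + 1) ^ 2) ^ k * Real.exp (-((E : ℝ) * k)))) * h5
      _ ≤ 1 * Real.exp (-(8 * (k : ℝ))) := by gcongr
      _ = _ := one_mul _
  have h4 := saving_le c₀ R hc₀ T (by linarith) hRT hTR2 hk3
  have h5 : (B₂.card : ℝ) ≤ 1 / 2 * R ^ (2 - c₀ / Real.log (Real.log R)) := by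
    have hk3' : (3 : ℝ) ≤ k := by exact_mod_cast hk3
    have h6 : 16 * Real.exp (-(8 * (k : ℝ))) ≤ 1 / 2 * Real.exp (-(4 * (k : ℝ))) := by
      have h7 : Real.exp (-(8 * (k : ℝ))) = Real.exp (-(4 * (k : ℝ))) * Real.exp (-(4 * (k : ℝ))) := by
        rw [← Real.exp_add]
        congr 1
        ring
      have h8 : Real.exp (-(4 * (k : ℝ))) ≤ 1 / 32 := by
        calc Real.exp (-(4 * (k : ℝ))) ≤ Real.exp (-12) := Real.exp_le_exp.2 (by linarith)
          _ = 1 / Real.exp 12 := by rw [Real.exp_neg, one_div]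
          _ ≤ 1 / 32 := one_div_le_one_div_of_le (by norm_num) exp_twelve
      rw [h7]
      have h9 : 0 < Real.exp (-(4 * (k : ℝ))) := Real.exp_pos _
      nlinarith
    have h7 : R ^ (2 - c₀ / Real.log (Real.log R)) = R ^ 2 * R ^ (-(c₀ / Real.log (Real.log R))) := by
      rw [sub_eq_add_neg, Real.rpow_add hRpos]
      norm_num
    calc (B₂.card : ℝ) ≤ T * (((2 * (D : ℝ) + 1) ^ 2) ^ k * (T * Real.exp (-((E : ℝ) * k)))) := h2
      _ = (T : ℝ) ^ 2 * (((2 * (D : ℝ) + 1) ^ 2) ^ k * Real.exp (-((E : ℝ) * k))) := by ring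
      _ ≤ (4 * R) ^ 2 * Real.exp (-(8 * (k : ℝ))) := by gcongr
      _ = R ^ 2 * (16 * Real.exp (-(8 * (k : ℝ)))) := by ring
      _ ≤ R ^ 2 * (1 / 2 * Real.exp (-(4 * (k : ℝ)))) := by gcongr
      _ ≤ R ^ 2 * (1 / 2 * R ^ (-(c₀ / Real.log (Real.log R)))) := by gcongr
      _ = 1 / 2 * R ^ (2 - c₀ / Real.log (Real.log R)) := by
        rw [h7]
        ring
  rw [hcard]
  push_cast
  linarith

end Vale.Agent.P015h2
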