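import Mathlib
import Vale.Agent.P015_h2.CountSeq

/-!
# Paths of Gaussian primes in widening regions around a line
-/

namespace Vale.Agent.P015h2

open Finset

lemma div_log_mono {u U : ℝ} (hu : Real.exp 1 ≤ u) (huU : u ≤ U) :
    u / Real.log u ≤ U / Real.log U := by
  have hU : Real.exp 1 ≤ U := hu.trans huU
  have hupos : 0 < u := (Real.exp_pos 1).trans_le hu
  have hUpos : 0 < U := (Real.exp_pos 1).trans_le hU
  have h1 : 0 < Real.log u := Real.log_pos (by
    have := Real.add_one_le_exp (1 : ℝ)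
    linarith)
  have h2 : 0 < Real.log U := Real.log_pos (by
    have := Real.add_one_le_exp (1 : ℝ)
    linarith)
  have h3 := Real.log_div_self_antitoneOn (Set.mem_ofPred.2 hu) (Set.mem_ofPred.2 hU) huU
  simp only at h3
  rw [div_le_div_iff₀ h1 h2]
  rw [div_le_div_iff₀ hUpos hupos] at h3
  linarith

lemma exists_large (c M : ℝ) (hc : 0 < c) :
    ∃ R₁ : ℝ, ∀ R : ℝ, R₁ ≤ R → M ≤ R ^ (c / Real.log (Real.log R)) := by
  have h1 : Filter.Tendsto (fun R : ℝ => c * (Real.log R / Real.log (Real.log R)))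
      Filter.atTop Filter.atTop := by
    apply Filter.Tendsto.const_mul_atTop hc
    have h2 : Filter.Tendsto (fun u : ℝ => u / Real.log u) Filter.atTop Filter.atTop := by
      rw [Filter.tendsto_atTop]
      intro b
      have hδ : (0 : ℝ) < 1 / (|b| + 1) := by positivity
      have h3 := Real.isLittleO_log_id_atTop.bound hδ
      filter_upwards [h3, Filter.eventually_ge_atTop (Real.exp 1)] with u h hu
      have hupos : 0 < u := (Real.exp_pos 1).trans_le hu
      have h4 : 0 < Real.log u := Real.log_pos (by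
        have := Real.add_one_le_exp (1 : ℝ)
        linarith)
      have h5 : ‖id u‖ = u := by
        rw [id, Real.norm_eq_abs, abs_of_pos hupos]
      rw [h5, Real.norm_eq_abs, abs_of_pos h4] at h
      rw [le_div_iff₀ h4]
      have h6 : (|b| + 1) * Real.log u ≤ u := by
        calc (|b| + 1) * Real.log u ≤ (|b| + 1) * (1 / (|b| + 1) * u) := by gcongr
          _ = u := by field_simp
      have h7 : b * Real.log u ≤ (|b| + 1) * Real.log u := by
        apply mul_le_mul_of_nonneg_right _ h4.le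
        linarith [le_abs_self b]
      linarith
    exact h2.comp Real.tendsto_log_atTop
  have h2 := Real.tendsto_exp_atTop.comp h1
  obtain ⟨R₁, hR₁⟩ := Filter.eventually_atTop.1
    ((h2.eventually_ge_atTop M).and (Filter.eventually_gt_atTop (0 : ℝ)))
  refine ⟨R₁, fun R hR => ?_⟩
  obtain ⟨h3, h4⟩ := hR₁ R hR
  rw [Real.rpow_def_of_pos h4]
  have e : Real.log R * (c / Real.log (Real.log R))
      = c * (Real.log R / Real.log (Real.log R)) := by ring
  rw [e]
  exact h3

lemma width_le (c R x : ℝ) (hc : 0 < c) (hR : 16 ≤ R) (hx : 16 ≤ x) (hxR : x ≤ 2 * R) :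
    x ^ (c / 2 / Real.log (Real.log x)) ≤ R ^ (c / Real.log (Real.log R)) := by
  have h16 : Real.exp 1 < Real.log 16 := by
    have h1 : Real.log 16 = 4 * Real.log 2 := by
      have : (16 : ℝ) = 2 ^ 4 := by norm_num
      rw [this, Real.log_pow]
      norm_num
    have h2 := Real.log_two_gt_d9
    have h3 := Real.exp_one_lt_d9
    linarith
  have hxpos : 0 < x := by linarith
  have hRpos : 0 < R := by linarith
  have hlx : Real.exp 1 ≤ Real.log x := h16.le.trans (Real.log_le_log (by norm_num) hx)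
  have hlR : Real.exp 1 ≤ Real.log R := h16.le.trans (Real.log_le_log (by norm_num) hR)
  have hl2R : Real.log x ≤ Real.log (2 * R) := Real.log_le_log hxpos hxR
  have he := Real.add_one_le_exp (1 : ℝ)
  have h1 := div_log_mono hlx hl2R
  have h2 : Real.log (2 * R) ≤ 2 * Real.log R := by
    have h3 : 2 * R ≤ R ^ 2 := by nlinarith
    have h4 := Real.log_le_log (by positivity) h3
    rw [Real.log_pow] at h4
    exact_mod_cast h4
  have h3 : Real.log R ≤ Real.log (2 * R) := Real.log_le_log hRpos (by linarith)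
  have h4 : 0 < Real.log (Real.log R) := Real.log_pos (by linarith)
  have h5 : Real.log (Real.log R) ≤ Real.log (Real.log (2 * R)) :=
    Real.log_le_log (by linarith) h3
  have h6 : 0 < Real.log R := by linarith
  rw [Real.rpow_def_of_pos hxpos, Real.rpow_def_of_pos hRpos]
  apply Real.exp_le_exp.2
  calc Real.log x * (c / 2 / Real.log (Real.log x))
      = c / 2 * (Real.log x / Real.log (Real.log x)) := by ring
    _ ≤ c / 2 * (Real.log (2 * R) / Real.log (Real.log (2 * R))) := by gcongr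
    _ ≤ c / 2 * (2 * Real.log R / Real.log (Real.log R)) := by gcongr
    _ = Real.log R * (c / Real.log (Real.log R)) := by ring

/-- Paths starting at a given point and staying in the region around a line are bounded. -/
theorem region_seq (D : ℕ) : ∃ c : ℝ, 0 < c ∧ ∀ (a v : ℂ), ‖v‖ = 1 → ∀ z : GaussianInt,
    ∃ R : ℝ, ∀ (f : ℕ → GaussianInt) (n : ℕ), f 0 = z →
    (∀ i, i ≤ n → Prime (f i)) → (∀ i, i ≤ n → ∀ j, j ≤ n → f i = f j → i = j) →
    (∀ i, i < n → ‖(f (i + 1) : ℂ) - f i‖ ≤ D) →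
    (∀ i, i ≤ n → ∃ s : ℝ, ‖(f i : ℂ) - (a + s * v)‖ ≤
      ‖(f i : ℂ)‖ ^ (c / Real.log (Real.log ‖(f i : ℂ)‖))) →
    ‖(f n : ℂ) - f 0‖ < R := by
  obtain ⟨c, hc, L₀, hL₀⟩ := tube_seq D
  refine ⟨c / 2, by positivity, ?_⟩
  intro a v hv z
  obtain ⟨R₁, hR₁⟩ := exists_large c (16 + ‖a‖) hc
  have hD0 : (0 : ℝ) ≤ D := by positivity
  set R : ℝ := max (max L₀ R₁) (16 + ‖(z : ℂ)‖ + D) with hRdef
  have hRL : L₀ ≤ R := (le_max_left _ _).trans (le_max_left _ _)
  have hRR : R₁ ≤ R := (le_max_right _ _).trans (le_max_left _ _)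
  have hRz : 16 + ‖(z : ℂ)‖ + D ≤ R := le_max_right _ _
  have hR16 : 16 ≤ R := by
    have : 0 ≤ ‖(z : ℂ)‖ := norm_nonneg _
    linarith
  refine ⟨R, ?_⟩
  intro f n hf0 hprime hinj hstep hregion
  by_contra hcon
  push Not at hcon
  classical
  have hex : ∃ i, R ≤ ‖(f i : ℂ) - f 0‖ := ⟨n, hcon⟩
  set m := Nat.find hex with hm
  have hm1 : R ≤ ‖(f m : ℂ) - f 0‖ := Nat.find_spec hex
  have hmn : m ≤ n := Nat.find_min' hex hcon
  have hm2 : ∀ i, i < m → ‖(f i : ℂ) - f 0‖ < R := by
    intro i hi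
    have := Nat.find_min hex hi
    push Not at this
    exact this
  have hm3 : ∀ i, i ≤ m → ‖(f i : ℂ)‖ ≤ 2 * R := by
    intro i hi
    have h1 : ‖(f i : ℂ) - f 0‖ ≤ R + D := by
      rcases Nat.eq_zero_or_pos i with h0 | h0
      · rw [h0, sub_self, norm_zero]
        linarith
      · have h2 := hm2 (i - 1) (by omega)
        have h3 := hstep (i - 1) (by omega)
        rw [Nat.sub_add_cancel h0] at h3
        calc ‖(f i : ℂ) - f 0‖ = ‖((f i : ℂ) - f (i - 1)) + ((f (i - 1) : ℂ) - f 0)‖ := by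
              congr 1
              ring
          _ ≤ ‖(f i : ℂ) - f (i - 1)‖ + ‖(f (i - 1) : ℂ) - f 0‖ := norm_add_le _ _
          _ ≤ R + D := by linarith
    calc ‖(f i : ℂ)‖ = ‖((f i : ℂ) - f 0) + f 0‖ := by
          congr 1
          ring
      _ ≤ ‖(f i : ℂ) - f 0‖ + ‖(f 0 : ℂ)‖ := norm_add_le _ _
      _ ≤ 2 * R := by
        rw [hf0] at *
        linarith
  have hlt := hL₀ R hRL a v hv f m (fun i hi => hprime i (by omega))
    (fun i hi j hj => hinj i (by omega) j (by omega)) (fun i hi => hstep i (by omega))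
    (fun i hi => by
      rcases le_or_gt 16 ‖(f i : ℂ)‖ with h | h
      · obtain ⟨s, hs⟩ := hregion i (by omega)
        exact ⟨s, hs.trans (width_le c R _ hc hR16 h (hm3 i hi))⟩
      · refine ⟨0, ?_⟩
        refine le_trans ?_ (hR₁ R hRR)
        have h1 : (f i : ℂ) - (a + ((0 : ℝ) : ℂ) * v) = (f i : ℂ) - a := by
          rw [Complex.ofReal_zero, zero_mul, add_zero]
        rw [h1]
        calc ‖(f i : ℂ) - a‖ ≤ ‖(f i : ℂ)‖ + ‖a‖ := norm_sub_le _ _
          _ ≤ 16 + ‖a‖ := by linarith)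
  linarith

end Vale.Agent.P015h2
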